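import Vale.Agent.P280.H939.R1
import Mathlib.LinearAlgebra.Matrix.Adjugate

/-! P280, Plan N: regularity of a rational vector field modulo regular ones (pure algebra). -/

namespace Vale.Agent.P280.H144

section
variable {R : Type*} [CommRing R] {K : Type*} [Field K] [Algebra R K]
variable {ι : Type*} [Fintype ι]

/-- `x : K` lies in `R`. -/
def InR (R : Type*) [CommRing R] {K : Type*} [Field K] [Algebra R K] (x : K) : Prop :=
  ∃ s : R, algebraMap R K s = x

theorem InR.add {x y : K} (hx : InR R x) (hy : InR R y) : InR R (x + y) := by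
  obtain ⟨a, rfl⟩ := hx
  obtain ⟨b, rfl⟩ := hy
  exact ⟨a + b, map_add _ _ _⟩

theorem InR.mul {x y : K} (hx : InR R x) (hy : InR R y) : InR R (x * y) := by
  obtain ⟨a, rfl⟩ := hx
  obtain ⟨b, rfl⟩ := hy
  exact ⟨a * b, map_mul _ _ _⟩

theorem InR.neg {x : K} (hx : InR R x) : InR R (-x) := by
  obtain ⟨a, rfl⟩ := hx
  exact ⟨-a, map_neg _ _⟩

theorem InR.sub {x y : K} (hx : InR R x) (hy : InR R y) : InR R (x - y) := by
  obtain ⟨a, rfl⟩ := hx
  obtain ⟨b, rfl⟩ := hy
  exact ⟨a - b, map_sub _ _ _⟩

theorem inR_map (a : R) : InR R (algebraMap R K a) := ⟨a, rfl⟩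

theorem inR_zero : InR R (0 : K) := ⟨0, map_zero _⟩

theorem InR.sum {κ : Type*} (s : Finset κ) {f : κ → K} (h : ∀ i ∈ s, InR R (f i)) :
    InR R (∑ i ∈ s, f i) := by
  classical
  induction s using Finset.induction_on with
  | empty =>
    rw [Finset.sum_empty]
    exact inR_zero
  | insert a s ha ih =>
    rw [Finset.sum_insert ha]
    exact (h a (Finset.mem_insert_self a s)).add (ih fun i hi => h i (Finset.mem_insert_of_mem hi))

/-- The multipliers which make `v` regular modulo the fields `W a`. -/
def condM (W : ι → R → R) (v : R → K) : Ideal R where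
  carrier := {r | ∃ g : ι → K, ∀ h, InR R (algebraMap R K r * v h -
    ∑ a, g a * algebraMap R K (W a h))}
  zero_mem' := ⟨0, fun h => by simpa using inR_zero⟩
  add_mem' := by
    rintro r r' ⟨g, hg⟩ ⟨g', hg'⟩
    refine ⟨g + g', fun h => ?_⟩
    have h1 := (hg h).add (hg' h)
    have h2 : algebraMap R K (r + r') * v h - ∑ a, (g + g') a * algebraMap R K (W a h) =
        (algebraMap R K r * v h - ∑ a, g a * algebraMap R K (W a h)) +
          (algebraMap R K r' * v h - ∑ a, g' a * algebraMap R K (W a h)) := by
      rw [map_add]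
      simp only [Pi.add_apply, add_mul, Finset.sum_add_distrib]
      ring
    rw [h2]
    exact h1
  smul_mem' := by
    rintro c r ⟨g, hg⟩
    refine ⟨fun a => algebraMap R K c * g a, fun h => ?_⟩
    have h1 := (inR_map (K := K) c).mul (hg h)
    have h2 : algebraMap R K (c • r) * v h - ∑ a, algebraMap R K c * g a * algebraMap R K (W a h) =
        algebraMap R K c * (algebraMap R K r * v h - ∑ a, g a * algebraMap R K (W a h)) := by
      rw [smul_eq_mul, map_mul, mul_sub, Finset.mul_sum, mul_assoc]
      congr 1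
      exact Finset.sum_congr rfl fun a _ => mul_assoc _ _ _
    rw [h2]
    exact h1

theorem mem_condM {W : ι → R → R} {v : R → K} {r : R} : r ∈ condM W v ↔
    ∃ g : ι → K, ∀ h, InR R (algebraMap R K r * v h - ∑ a, g a * algebraMap R K (W a h)) := Iff.rfl

/-- The conductor of `v` itself. -/
def cond0 (v : R → K) : Ideal R where
  carrier := {r | ∀ h, InR R (algebraMap R K r * v h)}
  zero_mem' := fun h => by simpa using inR_zero
  add_mem' := by
    intro r r' hr hr' h
    rw [map_add, add_mul]
    exact (hr h).add (hr' h)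
  smul_mem' := by
    intro c r hr h
    rw [smul_eq_mul, map_mul, mul_assoc]
    exact (inR_map c).mul (hr h)

theorem mem_cond0 {v : R → K} {r : R} : r ∈ cond0 v ↔ ∀ h, InR R (algebraMap R K r * v h) :=
  Iff.rfl

variable [DecidableEq ι]

/-- The matrix of the values of the fields `W` at the functions `H`. -/
def wmat (W : ι → R → R) (H : ι → R) : Matrix ι ι R := Matrix.of fun a b => W a (H b)

/-- The coefficients `g` with `v (H b) = ∑ a, g a * W a (H b)`. -/
noncomputable def gcoef (W : ι → R → R) (H : ι → R) (v : R → K) (a : ι) : K :=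
  ∑ b, v (H b) * ((wmat W H).map (algebraMap R K))⁻¹ b a

/-- `v` normalised so that it kills the functions `H`. -/
noncomputable def nrm (W : ι → R → R) (H : ι → R) (v : R → K) (h : R) : K :=
  v h - ∑ a, gcoef W H v a * algebraMap R K (W a h)

theorem det_map_ne [IsDomain R] [IsFractionRing R K] {W : ι → R → R} {H : ι → R}
    (hd : (wmat W H).det ≠ 0) : ((wmat W H).map (algebraMap R K)).det ≠ 0 := by
  rw [← RingHom.mapMatrix_apply, ← RingHom.map_det]
  intro h
  exact hd ((IsFractionRing.injective R K) (by rw [h, map_zero]))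

theorem gcoef_spec [IsDomain R] [IsFractionRing R K] {W : ι → R → R} {H : ι → R}
    (hd : (wmat W H).det ≠ 0) (v : R → K) (b : ι) :
    ∑ a, gcoef W H v a * algebraMap R K (W a (H b)) = v (H b) := by
  have h0 := det_map_ne (K := K) hd
  have h1 : Matrix.vecMul (Matrix.vecMul (fun b => v (H b))
      ((wmat W H).map (algebraMap R K))⁻¹) ((wmat W H).map (algebraMap R K)) =
      fun b => v (H b) := by
    rw [Matrix.vecMul_vecMul, Matrix.nonsing_inv_mul _ (Ne.isUnit h0), Matrix.vecMul_one]
  exact congrFun h1 b

/-- `v` normalised kills the functions `H`. -/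
theorem nrm_H [IsDomain R] [IsFractionRing R K] {W : ι → R → R} {H : ι → R}
    (hd : (wmat W H).det ≠ 0) (v : R → K) (b : ι) : nrm W H v (H b) = 0 := by
  rw [nrm, gcoef_spec hd, sub_self]

/-- Cramer's rule. -/
theorem cramer [IsDomain R] [IsFractionRing R K] {W : ι → R → R} {H : ι → R}
    {c : ι → K} (hc : ∀ b, InR R (∑ a, c a * algebraMap R K (W a (H b)))) (a : ι) :
    InR R (algebraMap R K (wmat W H).det * c a) := by
  have h1 : algebraMap R K (wmat W H).det * c a =
      ∑ b, (∑ a', c a' * algebraMap R K (W a' (H b))) * algebraMap R K ((wmat W H).adjugate b a) := by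
    have h2 : Matrix.vecMul (Matrix.vecMul c ((wmat W H).map (algebraMap R K)))
        ((wmat W H).map (algebraMap R K)).adjugate =
        ((wmat W H).map (algebraMap R K)).det • c := by
      rw [Matrix.vecMul_vecMul, Matrix.mul_adjugate, Matrix.vecMul_smul, Matrix.vecMul_one]
    have h3 := congrFun h2 a
    rw [Pi.smul_apply, smul_eq_mul, ← RingHom.mapMatrix_apply, ← RingHom.map_det,
      ← RingHom.map_adjugate] at h3
    rw [← h3]
    rfl
  rw [h1]
  exact InR.sum _ fun b _ => (hc b).mul (inR_map _)

/-- Regularity of the normalised field implies regularity modulo `W`. -/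
theorem cond0_le (W : ι → R → R) (H : ι → R) (v : R → K) :
    cond0 (nrm W H v) ≤ condM W v := by
  intro r hr
  refine ⟨fun a => algebraMap R K r * gcoef W H v a, fun h => ?_⟩
  have h1 := hr h
  have h2 : algebraMap R K r * v h - ∑ a, algebraMap R K r * gcoef W H v a *
      algebraMap R K (W a h) = algebraMap R K r * nrm W H v h := by
    rw [nrm, mul_sub, Finset.mul_sum]
    congr 1
    exact Finset.sum_congr rfl fun a _ => mul_assoc _ _ _
  rw [h2]
  exact h1

theorem mul_mem_cond0 [IsDomain R] [IsFractionRing R K] {W : ι → R → R} {H : ι → R}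
    (hd : (wmat W H).det ≠ 0) {v : R → K} {r : R} (hr : r ∈ condM W v) :
    (wmat W H).det * r ∈ cond0 (nrm W H v) := by
  obtain ⟨g, hg⟩ := hr
  have h1 : ∀ a, InR R (algebraMap R K (wmat W H).det *
      (algebraMap R K r * gcoef W H v a - g a)) := by
    apply cramer
    intro b
    have h2 := hg (H b)
    have h3 : ∑ a, (algebraMap R K r * gcoef W H v a - g a) * algebraMap R K (W a (H b)) =
        algebraMap R K r * v (H b) - ∑ a, g a * algebraMap R K (W a (H b)) := by
      rw [← gcoef_spec hd v b, Finset.mul_sum, ← Finset.sum_sub_distrib]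
      exact Finset.sum_congr rfl fun a _ => by ring
    rw [h3]
    exact h2
  intro h
  have h2 : algebraMap R K ((wmat W H).det * r) * nrm W H v h =
      algebraMap R K (wmat W H).det * (algebraMap R K r * v h -
        ∑ a, g a * algebraMap R K (W a h)) - ∑ a, (algebraMap R K (wmat W H).det *
      (algebraMap R K r * gcoef W H v a - g a)) * algebraMap R K (W a h) := by
    have h3 : ∑ a, (algebraMap R K (wmat W H).det *
        (algebraMap R K r * gcoef W H v a - g a)) * algebraMap R K (W a h) =
        algebraMap R K (wmat W H).det * (algebraMap R K r *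
          ∑ a, gcoef W H v a * algebraMap R K (W a h)) - algebraMap R K (wmat W H).det *
          ∑ a, g a * algebraMap R K (W a h) := by
      rw [Finset.mul_sum, Finset.mul_sum, Finset.mul_sum, ← Finset.sum_sub_distrib]
      exact Finset.sum_congr rfl fun a _ => by ring
    rw [h3, nrm, map_mul]
    ring
  rw [h2]
  exact ((inR_map _).mul (hg h)).sub (InR.sum _ fun a _ => (h1 a).mul (inR_map _))

/-- **Minimal primes of the polar ideal modulo `W` have height at most one** where the fields
`W` are independent. -/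
theorem height_condM [IsDomain R] [IsFractionRing R K] [IsNoetherianRing R] [IsIntegrallyClosed R]
    {W : ι → R → R} {H : ι → R} {v : R → K} {P : Ideal R}
    (hP : P ∈ (condM W v).minimalPrimes) (hd : (wmat W H).det ∉ P) : P.height ≤ 1 := by
  have hd0 : (wmat W H).det ≠ 0 := by
    intro h
    rw [h] at hd
    exact hd (Ideal.zero_mem P)
  have hPp : P.IsPrime := hP.isPrime
  refine Vale.Agent.P280.H939.height_le_one_of_conductor (K := K) (D := nrm W H v)
    (I := cond0 (nrm W H v)) (fun r => Iff.rfl) (P := P) ?_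
  refine ⟨⟨hPp, (cond0_le W H v).trans hP.1.2⟩, ?_⟩
  rintro Q ⟨hQ, hQI⟩ hQP
  refine hP.2 ⟨hQ, fun r hr => ?_⟩ hQP
  rcases hQ.mem_or_mem (hQI (mul_mem_cond0 hd0 hr)) with h | h
  · exact absurd (hQP h) hd
  · exact h

end

end Vale.Agent.P280.H144
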