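import Vale.Agent.P280.H144.Two

/-! P280, stage 2, leaf (b): the second field. -/

set_option linter.unusedSectionVars false

open DirectSum Vale.Agent.P280.T Vale.Agent.P280.H127 Vale.Agent.P280.N

namespace Vale.Agent.P280.H144

variable {r : ℕ} {R : Type} [CommRing R] [IsDomain R] [Algebra ℂ R]
  {𝒜 : ℕ × (Fin r → ℤ) → Submodule ℂ R} [GradedAlgebra 𝒜]
variable {N : ℤ} {n : ℕ} {f : Fin (n + 1) → Fin r → ℤ}
  {β : Fin (n + 1) → Fin (n + 1) → ((Fin r → ℤ) →+ ℤ)} {E F : Fin (n + 1) → Fin (n + 1) → VF R}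
  {c : (Fin r → ℤ) →+ ℤ}

/-- `f 0` is no multiple of `f 1`. -/
theorem f0_ne (hA : H989.AC 𝒜 N n f β E F) (k : ℤ) : f 0 ≠ k • f 1 := by
  intro h
  obtain ⟨h0, h1⟩ := ne_L hA
  have h2 := congrArg (β 0 (Fin.last n)) h
  rw [map_zsmul, hA.be _ _ _ h0, hA.be _ _ _ h0, if_pos rfl, if_neg h0, if_neg (ne01 hA).symm,
    if_neg h1, sub_zero, sub_zero, smul_zero] at h2
  have := hA.N0
  omega

/-- The value of a product at the source. -/
theorem val_smul (p : FP 𝒜) {μ : Fin r → ℤ} {x : FractionRing R} {D : VF R} (hμ : μ ≠ 0)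
    (hx : HK 𝒜 0 μ x) (hr : Rg p.q x) (hD : Glob D) : ValV p.q (x • D) 0 := by
  intro h
  have h1 : Val p.q x 0 := val_zero p hx hr (by rwa [zero_smul])
  obtain ⟨a, ha⟩ := (hD.rgV h : Rg p.q (D (iK h))).val
  have h2 := h1.mul ha
  rw [zero_mul] at h2
  rw [Derivation.smul_apply, smul_eq_mul, LinearMap.zero_apply]
  exact h2

theorem fieldB (H : Hyp 𝒜) (hA : H989.AC 𝒜 N n f β E F) (hv : N2.NoVec 𝒜 n f)
    (hc : N2.Ch2 𝒜 n f c) {p q : FP 𝒜} (hp : Pos c p) (hq1 : q.Pi (-f 1))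
    (hq : ∀ ψ, q.Pi ψ → ψ ≠ -f 1 → 0 < c ψ) (hno : ¬ q.Pi (f 1 - f (Fin.last n))) {m : ℕ}
    {φ : R →ₐ[ℂ] Polynomial ℂ} (hφ : Curve q p (-f 1) m φ) :
    ∃ D : VF R, Glob D ∧ HV 𝒜 (-f (Fin.last n)) D ∧ N2.NZ φ D ∧ ValV p.q D 0 := by
  have hE0 := hA.root 0 _ (ne_L hA).1
  have hE1 := hA.root 1 _ (ne_L hA).2
  have hqA : IsW c (f 1) q := ⟨hq1, hq⟩
  have z0 : HK 𝒜 0 (f 0) (0 : FractionRing R) := HK.zero le_rfl
  have hp1 : p.Pi (f 1) := by
    have := hφ.ya'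
    rwa [neg_neg] at this
  have hN := hA.N0
  -- `E 1 L` does not vanish at `p`
  have hpL : p.Pi (f 1 - f (Fin.last n)) := by
    by_contra hcon
    have hL := cL hA hc
    have h1 := hc.pos
    have h2 := ac_sub H hA (ne_L hA).2 hcon (fun h => by
      have := pos_lt hc hp h
      rw [map_neg, map_sub] at this
      linarith) hp1 (by
        rw [hA.be _ _ _ (ne_L hA).2, if_pos rfl, if_neg (ne_L hA).2]
        omega)
    rw [sub_sub_cancel] at h2
    have := pos_lt hc hp h2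
    linarith
  -- the function
  obtain ⟨d, u, hu, hu1⟩ := hφ.un'
  rw [sub_neg_eq_add] at hu
  have hφu : φ u ≠ 0 := by
    intro h
    rw [h, Polynomial.coeff_zero] at hu1
    exact hu1 rfl
  obtain ⟨s, hs, hs1⟩ := exists_sec H p
  have hsd := sec_pow hs d
  have hsd0 := sec_ne (y := p) hs1 d
  have φne : ∀ (e : ℕ) (a : R), a ∈ 𝒜 (e, e • p.ν) → p.q a = 1 → φ a ≠ 0 := by
    intro e a ha h1 h0
    have h2 := hφ.ev' e _ a ha
    rw [h0, Polynomial.coeff_zero, h1] at h2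
    exact zero_ne_one h2
  have hX0 : iK (s ^ d) * (iK u / iK (s ^ d)) = iK u := by rw [mul_comm, div_mul_cancel₀ _ hsd0]
  set X : FractionRing R := iK u / iK (s ^ d) with hX
  have hXk : HK 𝒜 0 (f 1) X := ⟨d, d, d • p.ν + f 1, d • p.ν, u, hu, s ^ d, hsd,
    fun h => hsd0 (by rw [h, iK_zero]), hX0, by simp, by abel⟩
  have hXr : Rg p.q X := ⟨u, s ^ d, by rw [map_pow, hs1, one_pow]; exact one_ne_zero, hX0⟩
  have hvv : HV 𝒜 (-f (Fin.last n)) (X • E 1 (Fin.last n)) := (hE1.hvE.smul hXk).cast (by abel)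
  have hvr : RgV p.q (X • E 1 (Fin.last n)) := RgV.smul hXr hE1.globE.rgV
  -- the wall `f 1`
  obtain ⟨ρ, g0, g1, hρ, -, hg0, -, hk0, -, -, hg1, he⟩ :=
    H340.rm_wall H hA hv hc hq1 hc.pos hq hvv
      (H399.wallA_field hA hv hc H hq1 hq hvv (regV_src H hc hp hvv hvr))
  have e1 : g1 = 0 := hg1 fun h => hno h.2
  rw [e1, zero_smul, add_zero] at he
  obtain ⟨x0, h0, r0, hxA, hxB⟩ := corr H hA hv hc hp hg0 z0
    (fun q' hq' d z hz => by
      have hS := H399.uniqA hA hv hc H hq1 hq hq'.pi hq'.oth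
      obtain ⟨k, hk⟩ := hk0 d z (H399.same_crd (A04.samePoint_symm hS) hz)
      exact ⟨k, A04.same_rg H hS ((hk_pow (HK.ofR hz.1) k).mul hg0) hk⟩)
    (fun q' hq' d z hz => ⟨0, by rw [mul_zero]; exact Rg.zero⟩)
  have hD : HV 𝒜 (-f (Fin.last n)) (X • E 1 (Fin.last n) - x0 • E 0 (Fin.last n)) :=
    hvv.sub ((hE0.hvE.smul h0).cast (by abel))
  have hDr : RgV p.q (X • E 1 (Fin.last n) - x0 • E 0 (Fin.last n)) :=
    hvr.sub (RgV.smul r0 hE0.globE.rgV)
  have hG : Glob (X • E 1 (Fin.last n) - x0 • E 0 (Fin.last n)) := by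
    refine glob_walls H hA hv hc hp hD hDr (fun q' hq' => ?_) (fun q' hq' => ?_)
    · have hS := H399.uniqA hA hv hc H hq1 hq hq'.pi hq'.oth
      refine A04.same_rgV H hS hD ?_
      have e : X • E 1 (Fin.last n) - x0 • E 0 (Fin.last n) =
          ρ + (g0 - x0) • E 0 (Fin.last n) := by
        rw [he]
        refine Derivation.ext fun h => ?_
        simp only [Derivation.sub_apply, Derivation.add_apply, Derivation.smul_apply, smul_eq_mul]
        ring
      rw [e]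
      exact hρ.add (RgV.smul (hxA q hqA) hE0.globE.rgV)
    · have h1 := hxB q' hq'
      rw [zero_sub] at h1
      have h2 := h1.neg
      rw [neg_neg] at h2
      exact (RgV.smul (rg1_B H hA hv hc hp hXk hXr hq') hE1.globE.rgV).sub
        (RgV.smul h2 hE0.globE.rgV)
  refine ⟨_, hG, hD, ?_, ?_⟩
  · -- nonzero along the curve
    obtain ⟨k, g1', hg1', hne⟩ : ∃ k g1' : R, E 1 (Fin.last n) (iK k) = iK g1' ∧ φ g1' ≠ 0 :=
      H79.ne_of_val' hφ hE1.globE hE1.hvE (hE1.atE p hpL)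
    obtain ⟨g0', hg0'⟩ := hE0.globE k
    obtain ⟨g, hg⟩ := hG k
    obtain ⟨e, e', b0, a0, hb0, ha0, hee, hb1, hx0⟩ := h0.exists_den H.hX p.nv p.fix r0
    have he' : e' = e := by omega
    subst he'
    refine ⟨k, g, hg, fun hzero => ?_⟩
    have ha : φ a0 = 0 := by
      by_contra hne0
      obtain ⟨i, -, hi, -⟩ := hφ.hom _ _ a0 ha0 hne0
      rw [hφ.nu] at hi
      apply f0_ne hA ((e' * m : ℤ) - i)
      have h3 : f 0 = e' • q.ν + i • -f 1 - e' • (q.ν + m • -f 1) := eq_sub_of_add_eq hi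
      rw [h3, sub_smul, mul_smul, natCast_zsmul, natCast_zsmul, natCast_zsmul, smul_add, smul_neg,
        smul_neg, smul_neg]
      abel
    have key : b0 * u * g1' = s ^ d * a0 * g0' + s ^ d * b0 * g := by
      apply iK_inj
      rw [iK_add, iK_mul, iK_mul, iK_mul, iK_mul, iK_mul, iK_mul, ← hg, Derivation.sub_apply,
        Derivation.smul_apply, Derivation.smul_apply, smul_eq_mul, smul_eq_mul, hg1', hg0', ← hX0,
        ← hx0]
      ring
    have h3 := congrArg φ key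
    rw [map_add, map_mul, map_mul, map_mul, map_mul, map_mul, map_mul, ha, hzero, mul_zero,
      zero_mul, mul_zero, add_zero] at h3
    rcases mul_eq_zero.1 h3 with h4 | h4
    · rcases mul_eq_zero.1 h4 with h5 | h5
      · exact φne _ _ hb0 hb1 h5
      · exact hφu h5
    · exact hne h4
  · have h1 := (val_smul p (f_ne0 hA hc).2 hXk hXr hE1.globE).sub
      (val_smul p (f_ne0 hA hc).1 h0 r0 hE0.globE)
    rwa [sub_zero] at h1

end Vale.Agent.P280.H144
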