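import Vale.Agent.P280.N2.Defs

/-! P280, stage 2: the functionals of the two walls of the chamber `Ch2`. -/

set_option linter.unusedSectionVars false

open DirectSum Vale.Agent.P280.T Vale.Agent.P280.H127 Vale.Agent.P280.N

namespace Vale.Agent.P280.H144

variable {r : ℕ} {R : Type} [CommRing R] [IsDomain R] [Algebra ℂ R]
  {𝒜 : ℕ × (Fin r → ℤ) → Submodule ℂ R} [GradedAlgebra 𝒜]
variable {N : ℤ} {n : ℕ} {f : Fin (n + 1) → Fin r → ℤ}
  {β : Fin (n + 1) → Fin (n + 1) → ((Fin r → ℤ) →+ ℤ)} {E F : Fin (n + 1) → Fin (n + 1) → VF R}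

/-- A functional with given values on the letters has on the weights the signs of `c`. -/
theorem ch_sign (hA : H989.AC 𝒜 N n f β E F) (hv : N2.NoVec 𝒜 n f) {c l : (Fin r → ℤ) →+ ℤ}
    {K : ℤ} (hK : 0 < K) (hnul : ∀ μ, N2.Nul β μ → l μ = K * c μ) {v : Fin (n + 1) → ℤ}
    (hl : ∀ k, l (f k) = N * v k) (h1 : ∀ i j, v j < v i → c (f j) < c (f i))
    (h2 : ∀ i, 0 < v i → 0 < c (f i)) (h3 : ∀ i, v i < 0 → c (f i) < 0) (μ : Fin r → ℤ)
    (hμ : Wt 𝒜 μ) : (0 < l μ → 0 < c μ) ∧ (l μ < 0 → c μ < 0) := by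
  have hN := hA.N0
  rcases hA.S μ hμ with h | ⟨i, j, hij, rfl⟩ | ⟨i, rfl | rfl⟩ | ⟨h3, i, j, hij, rfl⟩
  · rw [hnul μ h]
    exact ⟨fun h4 => (mul_pos_iff_of_pos_left hK).1 h4, fun h4 => by
      by_contra hcon
      exact absurd (mul_nonneg hK.le (not_lt.1 hcon)) (not_le.2 h4)⟩
  · rw [map_sub, map_sub, hl, hl, ← mul_sub]
    refine ⟨fun h4 => ?_, fun h4 => ?_⟩
    · have h5 : v j < v i := by
        have := (mul_pos_iff_of_pos_left hN).1 h4
        omega
      have := h1 i j h5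
      omega
    · have h5 : v i < v j := by
        by_contra hcon
        have : 0 ≤ N * (v i - v j) := mul_nonneg hN.le (by omega)
        omega
      have := h1 j i h5
      omega
  · rw [hl]
    refine ⟨fun h4 => h2 i ((mul_pos_iff_of_pos_left hN).1 h4), fun h4 => h3 i ?_⟩
    by_contra hcon
    have : 0 ≤ N * v i := mul_nonneg hN.le (by omega)
    omega
  · rw [map_neg, map_neg, hl]
    refine ⟨fun h4 => ?_, fun h4 => ?_⟩
    · have h5 : v i < 0 := by
        by_contra hcon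
        have : 0 ≤ N * v i := mul_nonneg hN.le (by omega)
        omega
      have := h3 i h5
      omega
    · have h5 : 0 < v i := by
        by_contra hcon
        have : N * v i ≤ 0 := mul_nonpos_of_nonneg_of_nonpos hN.le (by omega)
        omega
      have := h2 i h5
      omega
  · exact absurd hμ (hv h3 i j hij)

theorem ch_zero (hA : H989.AC 𝒜 N n f β E F) (hv : N2.NoVec 𝒜 n f) {c l : (Fin r → ℤ) →+ ℤ}
    (hc : ∀ μ, Wt 𝒜 μ → c μ ≠ 0)
    {K : ℤ} (hK : 0 < K) (hnul : ∀ μ, N2.Nul β μ → l μ = K * c μ) {v : Fin (n + 1) → ℤ}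
    (hl : ∀ k, l (f k) = N * v k) {μ : Fin r → ℤ} (hμ : Wt 𝒜 μ) (h0 : l μ = 0) :
    (∃ i j, i ≠ j ∧ v i = v j ∧ μ = f i - f j) ∨ ∃ i, v i = 0 ∧ (μ = f i ∨ μ = -f i) := by
  have hN := hA.N0
  rcases hA.S μ hμ with h | ⟨i, j, hij, rfl⟩ | ⟨i, rfl | rfl⟩ | ⟨h3, i, j, hij, rfl⟩
  · rw [hnul μ h] at h0
    rcases mul_eq_zero.1 h0 with h4 | h4
    · omega
    · exact absurd h4 (hc μ hμ)
  · rw [map_sub, hl, hl, ← mul_sub] at h0
    refine Or.inl ⟨i, j, hij, ?_, rfl⟩
    rcases mul_eq_zero.1 h0 with h4 | h4 <;> omega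
  · rw [hl] at h0
    refine Or.inr ⟨i, ?_, Or.inl rfl⟩
    rcases mul_eq_zero.1 h0 with h4 | h4 <;> omega
  · rw [map_neg, hl] at h0
    refine Or.inr ⟨i, ?_, Or.inr rfl⟩
    rcases mul_eq_zero.1 (neg_eq_zero.1 h0) with h4 | h4 <;> omega
  · exact absurd hμ (hv h3 i j hij)

/-- The functional of the wall `f 1`. -/
def lA (N : ℤ) (f : Fin (n + 1) → Fin r → ℤ)
    (β : Fin (n + 1) → Fin (n + 1) → ((Fin r → ℤ) →+ ℤ)) (c : (Fin r → ℤ) →+ ℤ) :
    (Fin r → ℤ) →+ ℤ :=
  N • c + (c (f 1)) • β 0 1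

/-- The functional of the wall `f 0 - f 1`. -/
def lB (N : ℤ) (f : Fin (n + 1) → Fin r → ℤ)
    (β : Fin (n + 1) → Fin (n + 1) → ((Fin r → ℤ) →+ ℤ)) (c : (Fin r → ℤ) →+ ℤ) :
    (Fin r → ℤ) →+ ℤ :=
  (2 * N) • c - (c (f 0 - f 1)) • β 0 1

section
variable {c : (Fin r → ℤ) →+ ℤ}

theorem ne01 (hA : H989.AC 𝒜 N n f β E F) : (0 : Fin (n + 1)) ≠ 1 := by
  have h := hA.n2
  have h1 : ((1 : Fin (n + 1)) : ℕ) = 1 := by rw [Fin.val_one', Nat.mod_eq_of_lt (by omega)]
  intro h2
  have h3 := congrArg Fin.val h2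
  rw [h1, Fin.val_zero] at h3
  omega

theorem tri (hA : H989.AC 𝒜 N n f β E F) (k : Fin (n + 1)) : k = 0 ∨ k = 1 ∨ 2 ≤ (k : ℕ) := by
  have h := hA.n2
  have h1 : ((1 : Fin (n + 1)) : ℕ) = 1 := by rw [Fin.val_one', Nat.mod_eq_of_lt (by omega)]
  have h0 : ((0 : Fin (n + 1)) : ℕ) = 0 := Fin.val_zero _
  rw [Fin.ext_iff, Fin.ext_iff, h0, h1]
  omega

theorem lt01 (hA : H989.AC 𝒜 N n f β E F) : (0 : Fin (n + 1)) < 1 := by
  have h := hA.n2
  have h1 : ((1 : Fin (n + 1)) : ℕ) = 1 := by rw [Fin.val_one', Nat.mod_eq_of_lt (by omega)]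
  have h0 : ((0 : Fin (n + 1)) : ℕ) = 0 := Fin.val_zero _
  rw [Fin.lt_def, h0, h1]
  omega

theorem ch_c0 (hA : H989.AC 𝒜 N n f β E F) (hc : N2.Ch2 𝒜 n f c) : 0 < c (f 0) :=
  hc.pos.trans (hc.ord 0 1 (lt01 hA))

theorem lA_f (hA : H989.AC 𝒜 N n f β E F) (k : Fin (n + 1)) :
    lA N f β c (f k) = N * (if k = 0 then c (f 0) + c (f 1) else if k = 1 then 0 else c (f k)) := by
  have h01 := ne01 hA
  rw [lA, AddMonoidHom.add_apply, AddMonoidHom.smul_apply, AddMonoidHom.smul_apply,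
    hA.be 0 1 k h01, smul_eq_mul, smul_eq_mul]
  by_cases h0 : k = 0
  · subst h0
    rw [if_pos rfl, if_neg h01, if_pos rfl]
    ring
  · rw [if_neg h0, if_neg h0]
    by_cases h1 : k = 1
    · rw [if_pos h1, if_pos h1, h1]
      ring
    · rw [if_neg h1, if_neg h1]
      ring

theorem lB_f (hA : H989.AC 𝒜 N n f β E F) (k : Fin (n + 1)) :
    lB N f β c (f k) =
      N * (if k = 0 ∨ k = 1 then c (f 0) + c (f 1) else 2 * c (f k)) := by
  have h01 := ne01 hA
  rw [lB, AddMonoidHom.sub_apply, AddMonoidHom.smul_apply, AddMonoidHom.smul_apply,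
    hA.be 0 1 k h01, smul_eq_mul, smul_eq_mul, map_sub]
  by_cases h0 : k = 0
  · subst h0
    rw [if_pos rfl, if_neg h01, if_pos (Or.inl rfl)]
    ring
  · by_cases h1 : k = 1
    · subst h1
      rw [if_neg h0, if_pos rfl, if_pos (Or.inr rfl)]
      ring
    · rw [if_neg h0, if_neg h1, if_neg (not_or.2 ⟨h0, h1⟩)]
      ring

theorem lA_nul (hA : H989.AC 𝒜 N n f β E F) {μ : Fin r → ℤ} (h : N2.Nul β μ) :
    lA N f β c μ = N * c μ := by
  rw [lA, AddMonoidHom.add_apply, AddMonoidHom.smul_apply, AddMonoidHom.smul_apply,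
    h 0 1 (ne01 hA), smul_zero, add_zero, smul_eq_mul]

theorem lB_nul (hA : H989.AC 𝒜 N n f β E F) {μ : Fin r → ℤ} (h : N2.Nul β μ) :
    lB N f β c μ = (2 * N) * c μ := by
  rw [lB, AddMonoidHom.sub_apply, AddMonoidHom.smul_apply, AddMonoidHom.smul_apply,
    h 0 1 (ne01 hA), smul_zero, sub_zero, smul_eq_mul]

theorem lA_sign (hA : H989.AC 𝒜 N n f β E F) (hv : N2.NoVec 𝒜 n f) (hc : N2.Ch2 𝒜 n f c)
    (μ : Fin r → ℤ) (hμ : Wt 𝒜 μ) :
    (0 < lA N f β c μ → 0 < c μ) ∧ (lA N f β c μ < 0 → c μ < 0) := by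
  have h01 := ne01 hA
  have hp := hc.pos
  have hp0 := ch_c0 hA hc
  have ho := hc.ord 0 1 (lt01 hA)
  refine ch_sign hA hv hA.N0 (fun μ h => lA_nul hA h) (lA_f hA) ?_ ?_ ?_ μ hμ
  · intro i j
    rcases tri hA i with rfl | rfl | hi <;> rcases tri hA j with rfl | rfl | hj
    · simp
    · simpa [h01.symm] using fun _ => ho
    · have := hc.neg j hj
      intro _
      linarith
    · intro h
      rw [if_pos rfl, if_neg h01.symm, if_pos rfl] at h
      linarith
    · simp
    · have := hc.neg j hj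
      intro _
      linarith
    · have := hc.neg i hi
      have hi0 : i ≠ 0 := by rintro rfl; simp at hi
      have hi1 : i ≠ 1 := by
        rintro rfl
        rw [Fin.val_one', Nat.mod_eq_of_lt (by have := hA.n2; omega)] at hi
        omega
      intro h
      rw [if_pos rfl, if_neg hi0, if_neg hi1] at h
      linarith
    · have := hc.neg i hi
      have hi0 : i ≠ 0 := by rintro rfl; simp at hi
      have hi1 : i ≠ 1 := by
        rintro rfl
        rw [Fin.val_one', Nat.mod_eq_of_lt (by have := hA.n2; omega)] at hi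
        omega
      intro h
      rw [if_neg h01.symm, if_pos rfl, if_neg hi0, if_neg hi1] at h
      linarith
    · have hi0 : i ≠ 0 := by rintro rfl; simp at hi
      have hi1 : i ≠ 1 := by
        rintro rfl
        rw [Fin.val_one', Nat.mod_eq_of_lt (by have := hA.n2; omega)] at hi
        omega
      have hj0 : j ≠ 0 := by rintro rfl; simp at hj
      have hj1 : j ≠ 1 := by
        rintro rfl
        rw [Fin.val_one', Nat.mod_eq_of_lt (by have := hA.n2; omega)] at hj
        omega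
      intro h
      rwa [if_neg hj0, if_neg hj1, if_neg hi0, if_neg hi1] at h
  · intro i h
    rcases tri hA i with rfl | rfl | hi
    · exact hp0
    · exact hp
    · have hi0 : i ≠ 0 := by rintro rfl; simp at hi
      have hi1 : i ≠ 1 := by
        rintro rfl
        rw [Fin.val_one', Nat.mod_eq_of_lt (by have := hA.n2; omega)] at hi
        omega
      rwa [if_neg hi0, if_neg hi1] at h
  · intro i h
    rcases tri hA i with rfl | rfl | hi
    · rw [if_pos rfl] at h
      linarith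
    · rw [if_neg h01.symm, if_pos rfl] at h
      exact absurd h (lt_irrefl _)
    · exact hc.neg i hi

theorem lA_zero (hA : H989.AC 𝒜 N n f β E F) (hv : N2.NoVec 𝒜 n f) (hc : N2.Ch2 𝒜 n f c)
    {μ : Fin r → ℤ} (hμ : Wt 𝒜 μ) (h0 : lA N f β c μ = 0) : μ = f 1 ∨ μ = -f 1 := by
  have h01 := ne01 hA
  have hp := hc.pos
  have hp0 := ch_c0 hA hc
  have aux : ∀ i : Fin (n + 1), 2 ≤ (i : ℕ) → i ≠ 0 ∧ i ≠ 1 := fun i hi =>
    ⟨by rintro rfl; simp at hi, by
      rintro rfl
      rw [Fin.val_one', Nat.mod_eq_of_lt (by have := hA.n2; omega)] at hi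
      omega⟩
  rcases ch_zero hA hv hc.ne hA.N0 (fun μ h => lA_nul hA h) (lA_f hA) hμ h0 with
    ⟨i, j, hij, h1, -⟩ | ⟨i, h1, h2⟩
  · exfalso
    rcases tri hA i with rfl | rfl | hi <;> rcases tri hA j with rfl | rfl | hj
    · exact hij rfl
    · rw [if_pos rfl, if_neg h01.symm, if_pos rfl] at h1
      linarith
    · have := hc.neg j hj
      rw [if_pos rfl, if_neg (aux j hj).1, if_neg (aux j hj).2] at h1
      linarith
    · rw [if_pos rfl, if_neg h01.symm, if_pos rfl] at h1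
      linarith
    · exact hij rfl
    · have := hc.neg j hj
      rw [if_neg h01.symm, if_pos rfl, if_neg (aux j hj).1, if_neg (aux j hj).2] at h1
      linarith
    · have := hc.neg i hi
      rw [if_pos rfl, if_neg (aux i hi).1, if_neg (aux i hi).2] at h1
      linarith
    · have := hc.neg i hi
      rw [if_neg h01.symm, if_pos rfl, if_neg (aux i hi).1, if_neg (aux i hi).2] at h1
      linarith
    · rw [if_neg (aux i hi).1, if_neg (aux i hi).2, if_neg (aux j hj).1, if_neg (aux j hj).2] at h1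
      rcases lt_or_gt_of_ne hij with h2 | h2
      · have := hc.ord i j h2
        linarith
      · have := hc.ord j i h2
        linarith
  · rcases tri hA i with rfl | rfl | hi
    · rw [if_pos rfl] at h1
      linarith
    · exact h2
    · have := hc.neg i hi
      rw [if_neg (aux i hi).1, if_neg (aux i hi).2] at h1
      linarith

theorem lB_sign (hA : H989.AC 𝒜 N n f β E F) (hv : N2.NoVec 𝒜 n f) (hc : N2.Ch2 𝒜 n f c)
    (μ : Fin r → ℤ) (hμ : Wt 𝒜 μ) :
    (0 < lB N f β c μ → 0 < c μ) ∧ (lB N f β c μ < 0 → c μ < 0) := by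
  have h01 := ne01 hA
  have hp := hc.pos
  have hp0 := ch_c0 hA hc
  have ho := hc.ord 0 1 (lt01 hA)
  have aux : ∀ i : Fin (n + 1), 2 ≤ (i : ℕ) → ¬ (i = 0 ∨ i = 1) := fun i hi =>
    not_or.2 ⟨by rintro rfl; simp at hi, by
      rintro rfl
      rw [Fin.val_one', Nat.mod_eq_of_lt (by have := hA.n2; omega)] at hi
      omega⟩
  have h2N : 0 < 2 * N := by have := hA.N0; omega
  refine ch_sign hA hv h2N (fun μ h => lB_nul hA h) (lB_f hA) ?_ ?_ ?_ μ hμ
  · intro i j
    rcases tri hA i with rfl | rfl | hi <;> rcases tri hA j with rfl | rfl | hj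
    · simp
    · simp
    · have := hc.neg j hj
      intro _
      linarith
    · simp
    · simp
    · have := hc.neg j hj
      intro _
      linarith
    · have := hc.neg i hi
      intro h
      rw [if_pos (Or.inl rfl), if_neg (aux i hi)] at h
      linarith
    · have := hc.neg i hi
      intro h
      rw [if_pos (Or.inr rfl), if_neg (aux i hi)] at h
      linarith
    · intro h
      rw [if_neg (aux j hj), if_neg (aux i hi)] at h
      linarith
  · intro i h
    rcases tri hA i with rfl | rfl | hi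
    · exact hp0
    · exact hp
    · rw [if_neg (aux i hi)] at h
      linarith
  · intro i h
    rcases tri hA i with rfl | rfl | hi
    · rw [if_pos (Or.inl rfl)] at h
      linarith
    · rw [if_pos (Or.inr rfl)] at h
      linarith
    · exact hc.neg i hi

theorem lB_zero (hA : H989.AC 𝒜 N n f β E F) (hv : N2.NoVec 𝒜 n f) (hc : N2.Ch2 𝒜 n f c)
    {μ : Fin r → ℤ} (hμ : Wt 𝒜 μ) (h0 : lB N f β c μ = 0) :
    μ = f 0 - f 1 ∨ μ = -(f 0 - f 1) := by
  have h01 := ne01 hA
  have hp := hc.pos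
  have hp0 := ch_c0 hA hc
  have aux : ∀ i : Fin (n + 1), 2 ≤ (i : ℕ) → ¬ (i = 0 ∨ i = 1) := fun i hi =>
    not_or.2 ⟨by rintro rfl; simp at hi, by
      rintro rfl
      rw [Fin.val_one', Nat.mod_eq_of_lt (by have := hA.n2; omega)] at hi
      omega⟩
  have h2N : 0 < 2 * N := by have := hA.N0; omega
  rcases ch_zero hA hv hc.ne h2N (fun μ h => lB_nul hA h) (lB_f hA) hμ h0 with
    ⟨i, j, hij, h1, h2⟩ | ⟨i, h1, -⟩
  · rcases tri hA i with rfl | rfl | hi <;> rcases tri hA j with rfl | rfl | hj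
    · exact absurd rfl hij
    · exact Or.inl h2
    · exfalso
      have := hc.neg j hj
      rw [if_pos (Or.inl rfl), if_neg (aux j hj)] at h1
      linarith
    · exact Or.inr (by rw [h2, neg_sub])
    · exact absurd rfl hij
    · exfalso
      have := hc.neg j hj
      rw [if_pos (Or.inr rfl), if_neg (aux j hj)] at h1
      linarith
    · exfalso
      have := hc.neg i hi
      rw [if_pos (Or.inl rfl), if_neg (aux i hi)] at h1
      linarith
    · exfalso
      have := hc.neg i hi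
      rw [if_pos (Or.inr rfl), if_neg (aux i hi)] at h1
      linarith
    · exfalso
      rw [if_neg (aux i hi), if_neg (aux j hj)] at h1
      rcases lt_or_gt_of_ne hij with h2 | h2
      · have := hc.ord i j h2
        linarith
      · have := hc.ord j i h2
        linarith
  · exfalso
    rcases tri hA i with rfl | rfl | hi
    · rw [if_pos (Or.inl rfl)] at h1
      linarith
    · rw [if_pos (Or.inr rfl)] at h1
      linarith
    · have := hc.neg i hi
      rw [if_neg (aux i hi)] at h1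
      linarith

end

end Vale.Agent.P280.H144
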