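import Vale.Agent.P280.H144.Polar
import Vale.Agent.P280.T.Ext2

/-! P280, Plan N: local weight lemma, regularity at a fixed point with one negative direction. -/

namespace Vale.Agent.P280.H144

open DirectSum Vale.Agent.P280.T Vale.Agent.P280.H127

section general
variable {R : Type} [CommRing R] [Algebra ℂ R] [IsDomain R] [IsNoetherianRing R]
variable {Λ : Type} [AddCommGroup Λ] [DecidableEq Λ] {ℬ : Λ → Submodule ℂ R} [GradedAlgebra ℬ]

/-- **Local weight lemma.** A homogeneous rational vector field `D / g` of weight `lam` with poles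
only along `u i0` is regular at `q` if for each parameter `u i` with `D (u i) ≠ 0` no positive
multiple of `wt i0` plus `wt i - lam` is the weight of a function not divisible by `u i0`. -/
theorem reg_local {q : R →ₐ[ℂ] ℂ} (hF : H127.Fix ℬ q) {n : ℕ} {u : Fin n → R} {wt : Fin n → Λ}
    (G : Gens ℬ q u wt) {g : R} {γ lam : Λ} (hg : g ∈ ℬ γ) (hg0 : g ≠ 0) (D : Derivation ℂ R R)
    (hD : ∀ k, ∀ h ∈ ℬ k, D h ∈ ℬ (k + γ - lam)) (i0 : Fin n) (hu0 : u i0 ≠ 0)
    (hpole : ∃ k : ℕ, ∃ s, q s ≠ 0 ∧ s * u i0 ^ k ∈ cond g D) {C : Set Λ} (h0 : (0 : Λ) ∉ C)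
    (hC : ∀ w ∈ C, ∀ i, i ≠ i0 → w - wt i ∈ C)
    (hw : ∀ i, D (u i) = 0 ∨ ∀ k : ℕ, k ≠ 0 → k • wt i0 + (wt i - lam) ∈ C) :
    ∃ s, q s ≠ 0 ∧ s ∈ cond g D := by
  classical
  obtain ⟨s1, hs1, hs1'⟩ := Nat.find_spec hpole
  have hmin : ∀ j, j < Nat.find hpole → ¬ ∃ s, q s ≠ 0 ∧ s * u i0 ^ j ∈ cond g D :=
    fun j hj => Nat.find_min hpole hj
  generalize hk : Nat.find hpole = k at hs1' hmin
  by_cases hk0 : k = 0
  · subst hk0
    rw [pow_zero, mul_one] at hs1'
    exact ⟨s1, hs1, hs1'⟩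
  exfalso
  obtain ⟨k', rfl⟩ := Nat.exists_eq_succ_of_ne_zero hk0
  -- a homogeneous denominator
  obtain ⟨s, hs0, hsq, hs⟩ : ∃ s ∈ ℬ 0, q s ≠ 0 ∧ s * u i0 ^ (k' + 1) ∈ cond g D := by
    refine ⟨cp ℬ 0 s1, cp_mem _ _ _, by rw [hF.q_cp]; exact hs1, ?_⟩
    have h1 : u i0 ^ (k' + 1) ∈ ℬ ((k' + 1) • wt i0) := SetLike.pow_mem_graded _ (G.hom i0)
    have h2 := cond_homogeneous (𝒜 := ℬ) hg D.toLinearMap
      (fun i h hh => ⟨_, hD i h hh⟩) hs1' ((k' + 1) • wt i0)
    have h3 := cp_mul_right ℬ h1 s1 ((k' + 1) • wt i0)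
    rw [sub_self] at h3
    rw [← h3]
    exact h2
  -- the derivation `E = s u ^ k D / g`
  have hEex : ∀ h, ∃ e, s * u i0 ^ (k' + 1) * D h = g * e := fun h => hs h
  choose E0 hE0 using hEex
  let E : R →ₗ[ℂ] R :=
    { toFun := E0
      map_add' := by
        intro x y
        apply mul_left_cancel₀ hg0
        rw [← hE0, mul_add, ← hE0, ← hE0, map_add, mul_add]
      map_smul' := by
        intro c x
        apply mul_left_cancel₀ hg0
        rw [← hE0, RingHom.id_apply, mul_smul_comm, ← hE0, D.map_smul, mul_smul_comm] }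
  have hE : ∀ h, s * u i0 ^ (k' + 1) * D h = g * E h := hE0
  have hEmul : ∀ a b, E (a * b) = a * E b + b * E a := by
    intro x y
    apply mul_left_cancel₀ hg0
    rw [← hE, Derivation.leibniz]
    simp only [smul_eq_mul]
    linear_combination x * hE y + y * hE x
  have hEdeg : ∀ j, ∀ h ∈ ℬ j, E h ∈ ℬ ((k' + 1) • wt i0 + (j - lam)) := by
    intro j h hh
    apply div_mem hg hg0
    rw [← hE]
    have h1 : u i0 ^ (k' + 1) ∈ ℬ ((k' + 1) • wt i0) := SetLike.pow_mem_graded _ (G.hom i0)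
    have h2 := SetLike.mul_mem_graded (SetLike.mul_mem_graded hs0 h1) (hD j h hh)
    have h3 : 0 + (k' + 1) • wt i0 + (j + γ - lam) = γ + ((k' + 1) • wt i0 + (j - lam)) := by
      abel
    rw [h3] at h2
    exact h2
  have hEu : ∀ i, ∃ t, q t = 1 ∧ u i0 ∣ t * E (u i) := by
    intro i
    rcases hw i with hz | hw
    · refine ⟨1, map_one q, ?_⟩
      have h1 : E (u i) = 0 := by
        apply mul_left_cancel₀ hg0
        rw [← hE, hz, mul_zero, mul_zero]
      rw [h1, mul_zero]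
      exact dvd_zero _
    · have h1 := hEdeg _ _ (G.hom i)
      have h2 := hw (k' + 1) (Nat.succ_ne_zero k')
      have h3 : (k' + 1) • wt i0 + (wt i - lam) ≠ 0 := fun h => h0 (h ▸ h2)
      obtain ⟨t, ht, ht'⟩ := lemmaA hF G (C := C) (J := {i0}) (by
        intro w hw i hi
        have h4 := hC w hw i hi
        exact ⟨h4, fun h => h0 (h ▸ h4)⟩) (w := (k' + 1) • wt i0 + (wt i - lam)) h2 h1
        (mem_mx.2 (hF _ h3 _ h1))
      rw [Set.image_singleton] at ht'
      exact ⟨t, ht, Ideal.mem_span_singleton.1 ht'⟩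
  choose t ht ht' using hEu
  obtain ⟨s', _, hs'1, hs'⟩ := G.gen
  obtain ⟨r, hr1, hr'⟩ := nakayama_step E hEmul hs'1 hs' G.zero (t := ∏ i, t i) (u0 := u i0)
    (by rw [map_prod]; exact Finset.prod_eq_one (fun i _ => ht i))
    (by
      intro i
      rw [← Finset.mul_prod_erase Finset.univ t (Finset.mem_univ i), mul_comm (t i), mul_assoc]
      exact dvd_mul_of_dvd_right (ht' i) _)
  apply hmin k' (Nat.lt_succ_self k')
  refine ⟨r * s, by rw [map_mul, hr1, one_mul]; exact hsq, ?_⟩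
  rw [mem_cond]
  intro h
  obtain ⟨y, hy⟩ := hr' h
  refine ⟨y, ?_⟩
  apply mul_left_cancel₀ hu0
  have h1 : u i0 * (r * s * u i0 ^ k' * D h) = r * (s * u i0 ^ (k' + 1) * D h) := by ring
  rw [h1, hE, mul_left_comm, hy]
  ring

end general

section modW
variable {R : Type} [CommRing R] [Algebra ℂ R] {ι : Type} [Fintype ι] [DecidableEq ι]

/-- The numerator of the normalised field `D / g0 - ∑ g_a W_a`, with denominator
`g0 * det (W_a (H_b))`. -/
noncomputable def num (D : Derivation ℂ R R) (W : ι → Derivation ℂ R R) (H : ι → R) :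
    Derivation ℂ R R :=
  (wmat (fun a => (W a : R → R)) H).det • D -
    ∑ a, (∑ b, D (H b) * (wmat (fun a => (W a : R → R)) H).adjugate b a) • W a

theorem num_apply (D : Derivation ℂ R R) (W : ι → Derivation ℂ R R) (H : ι → R) (h : R) :
    num D W H h = (wmat (fun a => (W a : R → R)) H).det * D h -
      ∑ a, (∑ b, D (H b) * (wmat (fun a => (W a : R → R)) H).adjugate b a) * W a h := by
  rw [num, Derivation.sub_apply, Derivation.smul_apply, smul_eq_mul]
  congr 1
  have h8 := congrFun (map_sum (Derivation.coeFnAddMonoidHom (R := ℂ) (A := R) (M := R))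
    (fun a => (∑ b, D (H b) * (wmat (fun a => (W a : R → R)) H).adjugate b a) • W a)
    Finset.univ) h
  rw [Finset.sum_apply] at h8
  exact h8

variable [IsDomain R] {K : Type} [Field K] [Algebra R K] [IsFractionRing R K]

/-- The numerator computes the normalised field. -/
theorem num_eq {g0 : R} (hg0 : g0 ≠ 0) (D : Derivation ℂ R R) (W : ι → Derivation ℂ R R)
    {H : ι → R} (hd : (wmat (fun a => (W a : R → R)) H).det ≠ 0) (h : R) :
    algebraMap R K (num D W H h) =
      algebraMap R K (g0 * (wmat (fun a => (W a : R → R)) H).det) *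
        nrm (fun a => (W a : R → R)) H (rat K g0 (D : R →ₗ[ℂ] R)) h := by
  have hg : algebraMap R K g0 ≠ 0 := fun h => hg0 ((IsFractionRing.injective R K)
    (by rw [h, map_zero]))
  have h0 := det_map_ne (K := K) hd
  have hdK : algebraMap R K (wmat (fun a => (W a : R → R)) H).det ≠ 0 := fun h =>
    hd ((IsFractionRing.injective R K) (by rw [h, map_zero]))
  have hinv : ∀ b a, algebraMap R K (wmat (fun a => (W a : R → R)) H).det *
      ((wmat (fun a => (W a : R → R)) H).map (algebraMap R K))⁻¹ b a =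
      algebraMap R K ((wmat (fun a => (W a : R → R)) H).adjugate b a) := by
    intro b a
    rw [Matrix.inv_def, Matrix.smul_apply, smul_eq_mul, Ring.inverse_eq_inv',
      ← RingHom.mapMatrix_apply, ← RingHom.map_det, ← mul_assoc, mul_inv_cancel₀ hdK, one_mul,
      ← RingHom.map_adjugate]
    rfl
  rw [num_apply, map_sub, map_sum, nrm, mul_sub, Finset.mul_sum]
  congr 1
  · rw [rat, map_mul, map_mul]
    change algebraMap R K _ * algebraMap R K (D h) =
      algebraMap R K g0 * algebraMap R K _ * (algebraMap R K (D h) / algebraMap R K g0)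
    field_simp
  · refine Finset.sum_congr rfl fun a _ => ?_
    rw [map_mul, ← mul_assoc]
    congr 1
    rw [map_sum, gcoef, Finset.mul_sum]
    refine Finset.sum_congr rfl fun b _ => ?_
    rw [map_mul, ← hinv, rat, map_mul]
    change algebraMap R K (D (H b)) * _ = algebraMap R K g0 * algebraMap R K _ *
      (algebraMap R K (D (H b)) / algebraMap R K g0 * _)
    field_simp

/-- The conductor of the numerator is the conductor of the normalised field. -/
theorem mem_cond_num {g0 : R} (hg0 : g0 ≠ 0) (D : Derivation ℂ R R) (W : ι → Derivation ℂ R R)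
    {H : ι → R} (hd : (wmat (fun a => (W a : R → R)) H).det ≠ 0) {r : R} :
    r ∈ cond (g0 * (wmat (fun a => (W a : R → R)) H).det) (num D W H) ↔
      r ∈ cond0 (nrm (K := K) (fun a => (W a : R → R)) H (rat K g0 (D : R →ₗ[ℂ] R))) := by
  have hgd : algebraMap R K (g0 * (wmat (fun a => (W a : R → R)) H).det) ≠ 0 := fun h =>
    (mul_ne_zero hg0 hd) ((IsFractionRing.injective R K) (by rw [h, map_zero]))
  rw [mem_cond, mem_cond0]
  refine forall_congr' fun h => ?_
  constructor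
  · rintro ⟨s, hs⟩
    refine ⟨s, mul_left_cancel₀ hgd ?_⟩
    rw [← map_mul, ← hs, map_mul, num_eq hg0 D W hd]
    ring
  · rintro ⟨s, hs⟩
    refine ⟨s, IsFractionRing.injective R K ?_⟩
    rw [map_mul, map_mul, num_eq hg0 D W hd, hs]
    ring

/-- The numerator kills the functions `H`. -/
theorem num_H (D : Derivation ℂ R R) (W : ι → Derivation ℂ R R)
    {H : ι → R} (hd : (wmat (fun a => (W a : R → R)) H).det ≠ 0) (b : ι) :
    num D W H (H b) = 0 := by
  apply IsFractionRing.injective R (FractionRing R)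
  rw [num_eq (K := FractionRing R) one_ne_zero D W hd, map_zero, nrm_H hd, mul_zero]

end modW

section modlocal
variable {R : Type} [CommRing R] [Algebra ℂ R] [IsDomain R] [IsNoetherianRing R]
variable {ι : Type} [Fintype ι] [DecidableEq ι]
variable {Λ : Type} [AddCommGroup Λ] [DecidableEq Λ] {ℬ : Λ → Submodule ℂ R} [GradedAlgebra ℬ]
variable {K : Type} [Field K] [Algebra R K] [IsFractionRing R K]

/-- The numerator is homogeneous. -/
theorem num_hom {D : Derivation ℂ R R} {W : ι → Derivation ℂ R R} {γ lam : Λ} {χ : ι → Λ}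
    (hD : ∀ k, ∀ h ∈ ℬ k, D h ∈ ℬ (k + γ - lam))
    (hW : ∀ a k, ∀ h ∈ ℬ k, W a h ∈ ℬ (k - χ a)) {H : ι → R} (hH : ∀ b, H b ∈ ℬ (χ b))
    (hd : (wmat (fun a => (W a : R → R)) H).det ≠ 0) :
    (wmat (fun a => (W a : R → R)) H).det ∈ ℬ 0 ∧
      ∀ k, ∀ h ∈ ℬ k, num D W H h ∈ ℬ (k + γ - lam) := by
  constructor
  · rw [Matrix.det_apply]
    refine Submodule.sum_mem _ fun σ _ => ?_
    rw [Units.smul_def]
    refine zsmul_mem ?_ _
    have h1 : ∏ j, wmat (fun a => (W a : R → R)) H (σ j) j ∈ ℬ (∑ j, (χ j - χ (σ j))) :=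
      SetLike.prod_mem_graded ℬ _ _ fun j _ => hW (σ j) _ _ (hH j)
    rw [Finset.sum_sub_distrib, Equiv.sum_comp σ χ, sub_self] at h1
    exact h1
  · intro k h hh
    have h1 : num D W H h = (pmat (D : R →ₗ[ℂ] R) (fun a => (W a : R →ₗ[ℂ] R))
        (Sum.elim (fun _ => h) H)).det := by
      apply IsFractionRing.injective R (FractionRing R)
      rw [num_eq (K := FractionRing R) one_ne_zero D W hd,
        det_block (g0 := (1 : R)) one_ne_zero (W := fun a => (W a : R →ₗ[ℂ] R)) hd, map_mul,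
        mul_assoc]
      rfl
    rw [h1, Matrix.det_apply]
    refine Submodule.sum_mem _ fun σ _ => ?_
    rw [Units.smul_def]
    refine zsmul_mem ?_ _
    have h2 : ∏ j, pmat (D : R →ₗ[ℂ] R) (fun a => (W a : R →ₗ[ℂ] R)) (Sum.elim (fun _ => h) H)
        (σ j) j ∈ ℬ (∑ j, (Sum.elim (fun _ : Unit => k) χ j -
          Sum.elim (fun _ : Unit => lam - γ) χ (σ j))) := by
      refine SetLike.prod_mem_graded ℬ _ _ fun j _ => ?_
      change (Sum.elim (fun _ : Unit => (D : R →ₗ[ℂ] R)) (fun a => (W a : R →ₗ[ℂ] R)) (σ j))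
        (Sum.elim (fun _ => h) H j) ∈ _
      have h3 : (Sum.elim (fun _ : Unit => h) H j) ∈ ℬ (Sum.elim (fun _ : Unit => k) χ j) := by
        rcases j with u | b
        · exact hh
        · exact hH b
      rcases hσ : σ j with u | a
      · have h4 := hD _ _ h3
        have h5 : Sum.elim (fun _ : Unit => k) χ j -
            Sum.elim (fun _ : Unit => lam - γ) χ (Sum.inl u : Unit ⊕ ι) =
            Sum.elim (fun _ : Unit => k) χ j + γ - lam := by
          rw [Sum.elim_inl]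
          abel
        rw [h5]
        exact h4
      · exact hW a _ _ h3
    rw [Finset.sum_sub_distrib, Equiv.sum_comp σ (Sum.elim (fun _ : Unit => lam - γ) χ),
      Fintype.sum_sum_type, Fintype.sum_sum_type] at h2
    simp only [Finset.univ_unique, Finset.sum_singleton, Sum.elim_inl, Sum.elim_inr] at h2
    have h3 : k + ∑ b, χ b - (lam - γ + ∑ b, χ b) = k + γ - lam := by abel
    rw [h3] at h2
    exact h2

/-- **Local weight lemma modulo fields.** -/
theorem mod_local {q : R →ₐ[ℂ] ℂ} (hF : H127.Fix ℬ q) {n : ℕ} {u : Fin n → R} {wt : Fin n → Λ}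
    (G : Gens ℬ q u wt) {g0 : R} {γ lam : Λ} (hg : g0 ∈ ℬ γ) (hg0 : g0 ≠ 0)
    (D : Derivation ℂ R R) (hD : ∀ k, ∀ h ∈ ℬ k, D h ∈ ℬ (k + γ - lam))
    (W : ι → Derivation ℂ R R) (β : ι → Fin n)
    (hW : ∀ a k, ∀ h ∈ ℬ k, W a h ∈ ℬ (k - wt (β a)))
    (hd : q (wmat (fun a => (W a : R → R)) (fun b => u (β b))).det ≠ 0) (i0 : Fin n)
    (hu0 : u i0 ≠ 0)
    (hpole : ∃ k : ℕ, ∃ s, q s ≠ 0 ∧ s * u i0 ^ k ∈
      condM (fun a => (W a : R → R)) (rat K g0 (D : R →ₗ[ℂ] R)))
    {C : Set Λ} (h0 : (0 : Λ) ∉ C) (hC : ∀ w ∈ C, ∀ i, i ≠ i0 → w - wt i ∈ C)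
    (hw : ∀ i, i ∉ Set.range β → ∀ k : ℕ, k ≠ 0 → k • wt i0 + (wt i - lam) ∈ C) :
    ∃ s, q s ≠ 0 ∧ s ∈ cond0 (nrm (K := K) (fun a => (W a : R → R)) (fun b => u (β b))
      (rat K g0 (D : R →ₗ[ℂ] R))) := by
  have hd0 : (wmat (fun a => (W a : R → R)) (fun b => u (β b))).det ≠ 0 := by
    intro h
    rw [h, map_zero] at hd
    exact hd rfl
  obtain ⟨hdet, hnum⟩ := num_hom hD hW (fun b => G.hom (β b)) hd0
  have hg' : g0 * (wmat (fun a => (W a : R → R)) (fun b => u (β b))).det ∈ ℬ γ := by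
    have h1 := SetLike.mul_mem_graded hg hdet
    rwa [add_zero] at h1
  obtain ⟨s, hs, hs'⟩ := reg_local hF G hg' (mul_ne_zero hg0 hd0) (num D W fun b => u (β b)) hnum
    i0 hu0 (by
      obtain ⟨k, s, hs, hs'⟩ := hpole
      refine ⟨k, (wmat (fun a => (W a : R → R)) (fun b => u (β b))).det * s, ?_, ?_⟩
      · rw [map_mul]
        exact mul_ne_zero hd hs
      · rw [mem_cond_num (K := K) hg0 D W hd0, mul_assoc]
        exact mul_mem_cond0 hd0 hs') h0 hC (by
      intro i
      by_cases hi : i ∈ Set.range β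
      · obtain ⟨b, rfl⟩ := hi
        exact Or.inl (num_H D W hd0 b)
      · exact Or.inr (hw i hi))
  exact ⟨s, hs, (mem_cond_num hg0 D W hd0).1 hs'⟩

end modlocal

end Vale.Agent.P280.H144
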