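import Vale.Agent.P280.H144.Cond
import Vale.Agent.P280.T.Ext1
import Mathlib.LinearAlgebra.Matrix.SchurComplement

/-! P280, Plan N: the polar ideal of a rational vector field modulo regular ones, by minors. -/

namespace Vale.Agent.P280.H144

open DirectSum Vale.Agent.P280.T Vale.Agent.P280.H127

section defs
variable {κ R : Type} [CommRing R] [Algebra ℂ R]
variable {ι : Type} [Fintype ι] [DecidableEq ι]

/-- The matrix of the values of `D`, `W a` at the functions `H`. -/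
def pmat (D : R →ₗ[ℂ] R) (W : ι → R →ₗ[ℂ] R) (H : Unit ⊕ ι → R) :
    Matrix (Unit ⊕ ι) (Unit ⊕ ι) R :=
  Matrix.of fun i j => (Sum.elim (fun _ => D) W i) (H j)

/-- The polar ideal of `D / g0` modulo the fields `W`. -/
def polar (𝒜 : κ → Submodule ℂ R) (g0 : R) (D : R →ₗ[ℂ] R) (W : ι → R →ₗ[ℂ] R) : Ideal R where
  carrier := {r | ∀ H : Unit ⊕ ι → R, (∀ b, SetLike.IsHomogeneousElem 𝒜 (H b)) →
    g0 ∣ r * (pmat D W H).det}
  zero_mem' := by
    intro H _
    rw [zero_mul]
    exact dvd_zero _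
  add_mem' := by
    intro a b ha hb H hH
    rw [add_mul]
    exact dvd_add (ha H hH) (hb H hH)
  smul_mem' := by
    intro c a ha H hH
    rw [smul_eq_mul, mul_assoc]
    exact dvd_mul_of_dvd_right (ha H hH) c

theorem mem_polar {𝒜 : κ → Submodule ℂ R} {g0 : R} {D : R →ₗ[ℂ] R} {W : ι → R →ₗ[ℂ] R} {r : R} :
    r ∈ polar 𝒜 g0 D W ↔ ∀ H : Unit ⊕ ι → R, (∀ b, SetLike.IsHomogeneousElem 𝒜 (H b)) →
      g0 ∣ r * (pmat D W H).det := Iff.rfl

/-- **Minimal primes of the polar ideal have height at most one.** -/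
theorem height_polar [IsDomain R] [IsNoetherianRing R] [IsIntegrallyClosed R]
    {𝒜 : κ → Submodule ℂ R} {g0 : R} (hg0 : g0 ≠ 0) {D : R →ₗ[ℂ] R} {W : ι → R →ₗ[ℂ] R}
    {P : Ideal R} (hP : P ∈ (polar 𝒜 g0 D W).minimalPrimes) : P.height ≤ 1 := by
  refine Vale.Agent.P280.H939.height_le_one_of_dvd hg0
    (fun x : {H : Unit ⊕ ι → R // ∀ b, SetLike.IsHomogeneousElem 𝒜 (H b)} =>
      (pmat D W x.1).det) (I := polar 𝒜 g0 D W) (fun r => ?_) hP
  rw [mem_polar]
  exact ⟨fun h x => h x.1 x.2, fun h H hH => h ⟨H, hH⟩⟩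

/-- `g0` is in the polar ideal. -/
theorem self_mem_polar {𝒜 : κ → Submodule ℂ R} (g0 : R) (D : R →ₗ[ℂ] R) (W : ι → R →ₗ[ℂ] R) :
    g0 ∈ polar 𝒜 g0 D W := fun _ _ => dvd_mul_right _ _

end defs

section hom
variable {κ R : Type} [AddCancelCommMonoid κ] [DecidableEq κ] [CommRing R] [Algebra ℂ R]
variable {𝒜 : κ → Submodule ℂ R} [GradedAlgebra 𝒜] {ι : Type} [Fintype ι] [DecidableEq ι]

theorem det_pmat_hom {D : R →ₗ[ℂ] R} {W : ι → R →ₗ[ℂ] R} {δ : κ} {w : ι → κ}
    (hD : ∀ i, ∀ h ∈ 𝒜 i, D h ∈ 𝒜 (i + δ)) (hW : ∀ a i, ∀ h ∈ 𝒜 i, W a h ∈ 𝒜 (i + w a))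
    {H : Unit ⊕ ι → R} (hH : ∀ b, SetLike.IsHomogeneousElem 𝒜 (H b)) :
    ∃ k, (pmat D W H).det ∈ 𝒜 k := by
  choose e he using hH
  refine ⟨(∑ j, e j) + ∑ i : Unit ⊕ ι, Sum.elim (fun _ => δ) w i, ?_⟩
  rw [Matrix.det_apply]
  refine Submodule.sum_mem _ fun σ _ => ?_
  rw [Units.smul_def]
  refine zsmul_mem ?_ _
  have h1 : ∏ j, pmat D W H (σ j) j ∈ 𝒜 (∑ j, (e j + Sum.elim (fun _ => δ) w (σ j))) := by
    refine SetLike.prod_mem_graded 𝒜 _ _ fun j _ => ?_
    change (Sum.elim (fun _ => D) W (σ j)) (H j) ∈ _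
    rcases hσ : σ j with u | a
    · exact hD _ _ (he j)
    · exact hW a _ _ (he j)
  rw [Finset.sum_add_distrib, Equiv.sum_comp σ (Sum.elim (fun _ => δ) w)] at h1
  exact h1

/-- **The polar ideal is homogeneous.** -/
theorem polar_homogeneous {g0 : R} {j0 : κ} (hg : g0 ∈ 𝒜 j0) {D : R →ₗ[ℂ] R}
    {W : ι → R →ₗ[ℂ] R} {δ : κ} {w : ι → κ}
    (hD : ∀ i, ∀ h ∈ 𝒜 i, D h ∈ 𝒜 (i + δ)) (hW : ∀ a i, ∀ h ∈ 𝒜 i, W a h ∈ 𝒜 (i + w a))
    {x : R} (hx : x ∈ polar 𝒜 g0 D W) (i : κ) :
    ((DirectSum.decompose 𝒜 x) i : R) ∈ polar 𝒜 g0 D W := by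
  intro H hH
  obtain ⟨k, hk⟩ := det_pmat_hom hD hW hH
  have h1 := dvd_component (𝒜 := 𝒜) hg (hx H hH) (i + k)
  rwa [DirectSum.coe_decompose_mul_add_of_right_mem 𝒜 hk] at h1

end hom

section local_eq
variable {κ R : Type} [CommRing R] [Algebra ℂ R] [IsDomain R]
variable {𝒜 : κ → Submodule ℂ R} {ι : Type} [Fintype ι] [DecidableEq ι]
variable {K : Type} [Field K] [Algebra R K] [IsFractionRing R K]

/-- The rational vector field `D / g0`. -/
noncomputable def rat (K : Type) [Field K] [Algebra R K] (g0 : R) (D : R →ₗ[ℂ] R) (h : R) : K :=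
  algebraMap R K (D h) / algebraMap R K g0

/-- The block determinant. -/
theorem det_block {D : R →ₗ[ℂ] R} {W : ι → R →ₗ[ℂ] R} {g0 : R} (hg0 : g0 ≠ 0) {H : ι → R}
    (hd : (wmat (fun a => (W a : R → R)) H).det ≠ 0) (h : R) :
    algebraMap R K (pmat D W (Sum.elim (fun _ => h) H)).det =
      algebraMap R K g0 * (algebraMap R K (wmat (fun a => (W a : R → R)) H).det *
        nrm (fun a => (W a : R → R)) H (rat K g0 D) h) := by
  have hg : algebraMap R K g0 ≠ 0 := fun h => hg0 ((IsFractionRing.injective R K)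
    (by rw [h, map_zero]))
  have h0 := det_map_ne (K := K) hd
  set N : Matrix ι ι K := (wmat (fun a => (W a : R → R)) H).map (algebraMap R K) with hN
  have hu : IsUnit N.det := Ne.isUnit h0
  let _ : Invertible N := Matrix.invertibleOfIsUnitDet N hu
  have h1 : (pmat D W (Sum.elim (fun _ => h) H)).map (algebraMap R K) =
      Matrix.fromBlocks (Matrix.of fun _ _ => algebraMap R K (D h))
        (Matrix.of fun _ b => algebraMap R K (D (H b)))
        (Matrix.of fun a _ => algebraMap R K (W a h)) N := by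
    ext i j
    rcases i with u | a <;> rcases j with u' | b <;> rfl
  rw [RingHom.map_det, RingHom.mapMatrix_apply, h1, Matrix.det_fromBlocks₂₂,
    RingHom.map_det, RingHom.mapMatrix_apply, ← hN, Matrix.invOf_eq_nonsing_inv]
  have h2 : (Matrix.of (fun (_ : Unit) (_ : Unit) => algebraMap R K (D h)) -
      (Matrix.of fun (_ : Unit) b => algebraMap R K (D (H b))) * N⁻¹ *
        (Matrix.of fun a (_ : Unit) => algebraMap R K (W a h))).det =
      algebraMap R K g0 * nrm (fun a => (W a : R → R)) H (rat K g0 D) h := by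
    rw [Matrix.det_unique, nrm, mul_sub, Matrix.sub_apply, Matrix.mul_apply]
    congr 1
    · rw [rat, mul_div_cancel₀ _ hg]
      rfl
    · rw [Finset.mul_sum]
      refine Finset.sum_congr rfl fun a _ => ?_
      rw [Matrix.mul_apply, ← mul_assoc]
      congr 1
      rw [gcoef, Finset.mul_sum]
      refine Finset.sum_congr rfl fun b _ => ?_
      rw [← mul_assoc, rat, mul_div_cancel₀ _ hg]
      rfl
  rw [h2]
  ring

/-- Regularity modulo `W` implies membership in the polar ideal. -/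
theorem condM_le_polar {g0 : R} (hg0 : g0 ≠ 0) (D : R →ₗ[ℂ] R) (W : ι → R →ₗ[ℂ] R) :
    condM (fun a => (W a : R → R)) (rat K g0 D) ≤ polar 𝒜 g0 D W := by
  have hg : algebraMap R K g0 ≠ 0 := fun h => hg0 ((IsFractionRing.injective R K)
    (by rw [h, map_zero]))
  rintro r ⟨g, hr⟩ H -
  choose s hs using hr
  -- the matrix with first row `s`
  set S : Matrix (Unit ⊕ ι) (Unit ⊕ ι) R :=
    (pmat D W H).updateRow (Sum.inl ()) (fun j => s (H j)) with hS
  refine ⟨S.det, (IsFractionRing.injective R K) ?_⟩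
  set M : Matrix (Unit ⊕ ι) (Unit ⊕ ι) K := (pmat D W H).map (algebraMap R K) with hM
  set M' : Matrix (Unit ⊕ ι) (Unit ⊕ ι) K :=
    M.updateRow (Sum.inl ()) ((algebraMap R K r / algebraMap R K g0) • M (Sum.inl ())) with hM'
  have h1 : M'.det = algebraMap R K r / algebraMap R K g0 * M.det := by
    rw [hM', Matrix.det_updateRow_smul, Matrix.updateRow_eq_self]
  have h2 : (M'.updateRow (Sum.inl ())
      (∑ k, (Sum.elim (fun _ => (1 : K)) (fun a => - g a) k) • M' k)).det = M'.det := by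
    rw [Matrix.det_updateRow_sum]
    simp
  have h3 : M'.updateRow (Sum.inl ())
      (∑ k, (Sum.elim (fun _ => (1 : K)) (fun a => - g a) k) • M' k) =
      S.map (algebraMap R K) := by
    ext i j
    rcases i with ⟨⟩ | a
    · have e0 : M' (Sum.inl ()) j =
          algebraMap R K r / algebraMap R K g0 * algebraMap R K (D (H j)) := by
        rw [hM', Matrix.updateRow_self]
        rfl
      have e1 : ∀ a, M' (Sum.inr a) j = algebraMap R K (W a (H j)) := by
        intro a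
        rw [hM', Matrix.updateRow_ne (by simp)]
        rfl
      have e2 : S (Sum.inl ()) j = s (H j) := by
        rw [hS, Matrix.updateRow_self]
      rw [Matrix.updateRow_self, Matrix.map_apply, e2, hs, Finset.sum_apply,
        Fintype.sum_sum_type]
      simp only [Finset.univ_unique, Finset.sum_singleton, Sum.elim_inl, Sum.elim_inr,
        Pi.smul_apply, smul_eq_mul, neg_mul, Finset.sum_neg_distrib, e1]
      rw [← sub_eq_add_neg]
      congr 1
      rw [one_mul]
      change M' (Sum.inl ()) j = _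
      rw [e0, rat]
      ring
    · have hne : (Sum.inr a : Unit ⊕ ι) ≠ Sum.inl () := by simp
      rw [Matrix.updateRow_ne hne, Matrix.map_apply, hS, Matrix.updateRow_ne hne, hM',
        Matrix.updateRow_ne hne]
      rfl
  have h4 : algebraMap R K S.det = algebraMap R K r / algebraMap R K g0 * M.det := by
    rw [← h1, ← h2, h3, RingHom.map_det, RingHom.mapMatrix_apply]
  rw [map_mul, map_mul, h4, hM, ← RingHom.mapMatrix_apply, ← RingHom.map_det, ← mul_assoc,
    mul_div_cancel₀ _ hg]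

end local_eq

section back
variable {κ R : Type} [DecidableEq κ] [AddMonoid κ] [CommRing R] [Algebra ℂ R]
variable {𝒜 : κ → Submodule ℂ R} [GradedAlgebra 𝒜] {ι : Type} [Fintype ι] [DecidableEq ι]
variable {K : Type} [Field K] [Algebra R K]

theorem nrm_add {W : ι → R →ₗ[ℂ] R} {H : ι → R} {g0 : R} {D : R →ₗ[ℂ] R} (x y : R) :
    nrm (K := K) (fun a => (W a : R → R)) H (rat K g0 D) (x + y) =
      nrm (fun a => (W a : R → R)) H (rat K g0 D) x +
        nrm (fun a => (W a : R → R)) H (rat K g0 D) y := by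
  simp only [nrm, rat, map_add, mul_add, Finset.sum_add_distrib, add_div]
  ring

theorem nrm_zero {W : ι → R →ₗ[ℂ] R} {H : ι → R} {g0 : R} {D : R →ₗ[ℂ] R} :
    nrm (K := K) (fun a => (W a : R → R)) H (rat K g0 D) 0 = 0 := by
  simp [nrm, rat]

/-- Where the fields `W` are independent, the polar ideal describes regularity modulo `W`. -/
theorem det_mul_polar [IsDomain R] [IsFractionRing R K] {g0 : R} (hg0 : g0 ≠ 0) {D : R →ₗ[ℂ] R} {W : ι → R →ₗ[ℂ] R} {H : ι → R}
    (hH : ∀ b, SetLike.IsHomogeneousElem 𝒜 (H b))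
    (hd : (wmat (fun a => (W a : R → R)) H).det ≠ 0) {r : R} (hr : r ∈ polar 𝒜 g0 D W) :
    (wmat (fun a => (W a : R → R)) H).det * r ∈
      cond0 (nrm (fun a => (W a : R → R)) H (rat K g0 D)) := by
  have hg : algebraMap R K g0 ≠ 0 := fun h => hg0 ((IsFractionRing.injective R K)
    (by rw [h, map_zero]))
  intro h
  induction h using DirectSum.Decomposition.inductionOn 𝒜 with
  | zero =>
    rw [nrm_zero, mul_zero]
    exact inR_zero
  | @homogeneous i a =>
    obtain ⟨s, hs⟩ := hr (Sum.elim (fun _ => (a : R)) H) (by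
      rintro (u | b)
      · exact ⟨i, a.2⟩
      · exact hH b)
    refine ⟨s, mul_left_cancel₀ hg ?_⟩
    have h1 := congrArg (algebraMap R K) hs
    rw [map_mul, map_mul, det_block hg0 hd] at h1
    rw [← h1, map_mul]
    ring
  | add a b ha hb =>
    rw [nrm_add, mul_add]
    exact ha.add hb

end back

section neg
variable {R : Type} [CommRing R] [Algebra ℂ R] [IsDomain R] [IsNoetherianRing R]
variable {Λ : Type} [AddCommGroup Λ] [DecidableEq Λ] {ℬ : Λ → Submodule ℂ R} [GradedAlgebra ℬ]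

/-- **Only one direction is negative** at a point of a divisor on which all functions of negative
weight vanish. -/
theorem one_neg {q : R →ₐ[ℂ] ℂ} (hr : IsRegularLocalRing (Localization.AtPrime (mx q))) {n : ℕ}
    {u : Fin n → R} {wt : Fin n → Λ} (G : Gens ℬ q u wt) {v : Fin n → R →ₗ[ℂ] ℂ}
    (hv1 : ∀ i, Tan q (v i)) (hv2 : ∀ i j, v i (u j) = if i = j then 1 else 0) {I : Ideal R}
    (hI : ∀ Q ∈ I.minimalPrimes, Q ≤ mx q → Q.height ≤ 1) (hIq : I ≤ mx q) {C : Set Λ}
    (hC : ∀ w ∈ C, ∀ x ∈ ℬ w, x ∈ I.radical) {i j : Fin n} (hi : wt i ∈ C) (hj : wt j ∈ C) :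
    i = j := by
  by_contra hne
  obtain ⟨Q, hQ, hQm⟩ := Ideal.exists_minimalPrimes_le hIq
  have hQp : Q.IsPrime := hQ.isPrime
  have hQh : Q.height ≤ 1 := hI Q hQ hQm
  have hrad : I.radical ≤ Q := by
    rw [hQp.radical_le_iff]
    exact hQ.1.2
  have hu0Q : u i ∈ Q := hrad (hC _ hi _ (G.hom i))
  have hu1Q : u j ∈ Q := hrad (hC _ hj _ (G.hom j))
  obtain ⟨t, y, ht, hty⟩ := local_principal hr (mem_mx.2 (G.zero i)) (hv1 i)
    (by rw [hv2 i i, if_pos rfl]; exact one_ne_zero) hQp hQm hQh hu0Q hu1Q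
  have h1 := congrArg (v j) hty
  rw [tan_mul (hv1 j) _ _ (G.zero j), tan_mul (hv1 j) _ _ (G.zero i), hv2 j j, hv2 j i,
    if_pos rfl, if_neg (Ne.symm hne), mul_one, mul_zero] at h1
  exact ht h1

end neg

end Vale.Agent.P280.H144
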