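import Vale.Agent.P280.H79.B3Src
import Vale.Agent.P280.H144.LW

/-! P280, stage 2: the weights at the source and at the two wall points of the chamber `Ch2`. -/

set_option linter.unusedSectionVars false

open DirectSum Vale.Agent.P280.T Vale.Agent.P280.H127 Vale.Agent.P280.N

namespace Vale.Agent.P280.H144

variable {r : ℕ} {R : Type} [CommRing R] [IsDomain R] [Algebra ℂ R]
  {𝒜 : ℕ × (Fin r → ℤ) → Submodule ℂ R} [GradedAlgebra 𝒜]
variable {N : ℤ} {n : ℕ} {f : Fin (n + 1) → Fin r → ℤ}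
  {β : Fin (n + 1) → Fin (n + 1) → ((Fin r → ℤ) →+ ℤ)} {E F : Fin (n + 1) → Fin (n + 1) → VF R}
  {c : (Fin r → ℤ) →+ ℤ}

/-- Closure. -/
theorem ac_ns (H : Hyp 𝒜) (hA : H989.AC 𝒜 N n f β E F) {i j : Fin (n + 1)} (hij : i ≠ j)
    {y : FP 𝒜} (hna : ¬ y.Pi (-(f i - f j))) {χ : Fin r → ℤ} (hχ : y.Pi χ) (hβ : β i j χ < 0) :
    y.Pi (χ + (f i - f j)) :=
  H155.nef_string0 H hA.N0 (H155.toRoot0 (hA.root i j hij)) (hA.root i j hij).int y hna hχ hβ

/-- Reflection at a fixed point of the reflection. -/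
theorem ac_sub (H : Hyp 𝒜) (hA : H989.AC 𝒜 N n f β E F) {i j : Fin (n + 1)} (hij : i ≠ j)
    {y : FP 𝒜} (h1 : ¬ y.Pi (f i - f j)) (h2 : ¬ y.Pi (-(f i - f j))) {χ : Fin r → ℤ}
    (hχ : y.Pi χ) (hβ : 0 < β i j χ) : y.Pi (χ - (f i - f j)) :=
  H155.root_sub0 H hA.N0 (H155.toRoot0 (hA.root i j hij)) h1 h2 hχ hβ

theorem ne_L (hA : H989.AC 𝒜 N n f β E F) : (0 : Fin (n + 1)) ≠ Fin.last n ∧
    (1 : Fin (n + 1)) ≠ Fin.last n := by
  have h := hA.n2
  have h1 : ((1 : Fin (n + 1)) : ℕ) = 1 := by rw [Fin.val_one', Nat.mod_eq_of_lt (by omega)]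
  have h0 : ((0 : Fin (n + 1)) : ℕ) = 0 := Fin.val_zero _
  refine ⟨fun h2 => ?_, fun h2 => ?_⟩
  · have h3 := congrArg Fin.val h2
    rw [h0, Fin.val_last] at h3
    omega
  · have h3 := congrArg Fin.val h2
    rw [h1, Fin.val_last] at h3
    omega

theorem two_le_L (hA : H989.AC 𝒜 N n f β E F) : 2 ≤ ((Fin.last n : Fin (n + 1)) : ℕ) := by
  rw [Fin.val_last]
  exact hA.n2

theorem cL (hA : H989.AC 𝒜 N n f β E F) (hc : N2.Ch2 𝒜 n f c) : c (f (Fin.last n)) < 0 :=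
  hc.neg _ (two_le_L hA)

/-! ### The source -/

theorem pos_lt (hc : N2.Ch2 𝒜 n f c) {p : FP 𝒜} (hp : Pos c p) {ψ : Fin r → ℤ} (hψ : p.Pi ψ) :
    0 < c ψ :=
  lt_of_le_of_ne (hp ψ hψ) (hc.ne ψ ⟨p, hψ⟩).symm

/-- At a source, or at a wall point where `-f i` is absent. -/
theorem pi_L (H : Hyp 𝒜) (hA : H989.AC 𝒜 N n f β E F) {q : FP 𝒜}
    {i : Fin (n + 1)} (hi : i ≠ Fin.last n) (h1 : ¬ q.Pi (-(f i - f (Fin.last n))))
    (h2 : ¬ q.Pi (-f i)) (hl : q.Pi (-f (Fin.last n))) : q.Pi (f i - f (Fin.last n)) := by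
  by_contra h
  have h3 : 0 < β i (Fin.last n) (-f (Fin.last n)) := by
    rw [map_neg, hA.be i _ _ hi, if_neg hi.symm, if_pos rfl]
    have := hA.N0
    omega
  have h4 := ac_sub H hA hi h h1 hl h3
  apply h2
  have e : -f (Fin.last n) - (f i - f (Fin.last n)) = -f i := by abel
  rwa [e] at h4

theorem src_f0L (H : Hyp 𝒜) (hA : H989.AC 𝒜 N n f β E F) (hc : N2.Ch2 𝒜 n f c) {p : FP 𝒜}
    (hp : Pos c p) (hl : p.Pi (-f (Fin.last n))) : p.Pi (f 0 - f (Fin.last n)) := by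
  have h0 := ch_c0 hA hc
  have hL := cL hA hc
  refine pi_L H hA (ne_L hA).1 (fun h => ?_) (fun h => ?_) hl
  · have := pos_lt hc hp h
    rw [map_neg, map_sub] at this
    linarith
  · have := pos_lt hc hp h
    rw [map_neg] at this
    linarith

theorem src_f1L (H : Hyp 𝒜) (hA : H989.AC 𝒜 N n f β E F) (hc : N2.Ch2 𝒜 n f c) {p : FP 𝒜}
    (hp : Pos c p) (hl : p.Pi (-f (Fin.last n))) : p.Pi (f 1 - f (Fin.last n)) := by
  have h0 := hc.pos
  have hL := cL hA hc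
  refine pi_L H hA (ne_L hA).2 (fun h => ?_) (fun h => ?_) hl
  · have := pos_lt hc hp h
    rw [map_neg, map_sub] at this
    linarith
  · have := pos_lt hc hp h
    rw [map_neg] at this
    linarith

theorem src_f0 (H : Hyp 𝒜) (hA : H989.AC 𝒜 N n f β E F) (hc : N2.Ch2 𝒜 n f c) {p : FP 𝒜}
    (hp : Pos c p) (h1 : p.Pi (f 1)) : p.Pi (f 0) := by
  have ho := hc.ord 0 1 (lt01 hA)
  have h2 := ac_ns H hA (ne01 hA) (y := p) (χ := f 1) (fun h => by
    have := pos_lt hc hp h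
    rw [map_neg, map_sub] at this
    linarith) h1 (by
      rw [hA.be 0 1 1 (ne01 hA), if_neg (ne01 hA).symm, if_pos rfl]
      have := hA.N0
      omega)
  rwa [add_sub_cancel] at h2

theorem src_or (H : Hyp 𝒜) (hA : H989.AC 𝒜 N n f β E F) (hc : N2.Ch2 𝒜 n f c) {p : FP 𝒜}
    (hp : Pos c p) (h0 : p.Pi (f 0)) : p.Pi (f 1) ∨ p.Pi (f 0 - f 1) := by
  by_contra hcon
  push Not at hcon
  have ho := hc.ord 0 1 (lt01 hA)
  have h2 := ac_sub H hA (ne01 hA) (y := p) (χ := f 0) hcon.2 (fun h => by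
    have := pos_lt hc hp h
    rw [map_neg, map_sub] at this
    linarith) h0 (by
      rw [hA.be 0 1 0 (ne01 hA), if_neg (ne01 hA), if_pos rfl]
      have := hA.N0
      omega)
  rw [sub_sub_cancel] at h2
  exact hcon.1 h2

/-! ### The wall `f 1` -/

section
variable {q : FP 𝒜}

theorem wallA_src (H : Hyp 𝒜) (hc : N2.Ch2 𝒜 n f c) (hq : q.Pi (-f 1))
    (hoth : ∀ ψ, q.Pi ψ → ψ ≠ -f 1 → 0 < c ψ) {p : FP 𝒜} (hp : Pos c p) : p.Pi (f 1) := by
  obtain ⟨p', m, φ, hφ⟩ := exists_curve H q hq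
  have hp' := N2.pos_of_one_neg H hφ hc.pos hoth
  have h1 := hφ.ya'
  rw [neg_neg] at h1
  exact ((same_pi (pos_unique H c hc.ne hp' hp) H).2 _).1 h1

theorem wallA_L (H : Hyp 𝒜) (hA : H989.AC 𝒜 N n f β E F) (hc : N2.Ch2 𝒜 n f c)
    (hq : q.Pi (-f 1)) (hoth : ∀ ψ, q.Pi ψ → ψ ≠ -f 1 → 0 < c ψ) : q.Pi (-f (Fin.last n)) := by
  have hL := cL hA hc
  have hp := hc.pos
  have h2 := ac_ns H hA (ne_L hA).2 (y := q) (χ := -f 1) (fun h => by
    have h3 := hoth _ h (fun h4 => by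
      have h5 : f (Fin.last n) = 0 := by
        have h6 := neg_injective h4
        rwa [sub_eq_self] at h6
      rw [h5, map_zero] at hL
      exact lt_irrefl _ hL)
    rw [map_neg, map_sub] at h3
    linarith) hq (by
      rw [map_neg, hA.be 1 _ 1 (ne_L hA).2, if_neg (ne_L hA).2, if_pos rfl]
      have := hA.N0
      omega)
  have e : -f 1 + (f 1 - f (Fin.last n)) = -f (Fin.last n) := by abel
  rwa [e] at h2

theorem wallA_not_f0 (hA : H989.AC 𝒜 N n f β E F) (hc : N2.Ch2 𝒜 n f c)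
    (hoth : ∀ ψ, q.Pi ψ → ψ ≠ -f 1 → 0 < c ψ) : ¬ q.Pi (-f 0) := by
  intro h
  have ho := hc.ord 0 1 (lt01 hA)
  have hp := hc.pos
  have h1 := hoth _ h (fun h4 => by
    rw [neg_injective h4] at ho
    exact lt_irrefl _ ho)
  rw [map_neg] at h1
  linarith

theorem wallA_f0L (H : Hyp 𝒜) (hA : H989.AC 𝒜 N n f β E F) (hc : N2.Ch2 𝒜 n f c)
    (hq : q.Pi (-f 1)) (hoth : ∀ ψ, q.Pi ψ → ψ ≠ -f 1 → 0 < c ψ) :
    q.Pi (f 0 - f (Fin.last n)) := by
  have hL := cL hA hc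
  have hp0 := ch_c0 hA hc
  have ho := hc.ord 0 1 (lt01 hA)
  refine pi_L H hA (ne_L hA).1 (fun h => ?_) (wallA_not_f0 hA hc hoth) (wallA_L H hA hc hq hoth)
  have h3 := hoth _ h (fun h4 => by
    have h6 := congrArg c (neg_injective h4)
    rw [map_sub] at h6
    linarith)
  rw [map_neg, map_sub] at h3
  linarith

theorem wallA_f01 (H : Hyp 𝒜) (hA : H989.AC 𝒜 N n f β E F) (hc : N2.Ch2 𝒜 n f c)
    (hq : q.Pi (-f 1)) (hoth : ∀ ψ, q.Pi ψ → ψ ≠ -f 1 → 0 < c ψ) : q.Pi (f 0 - f 1) := by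
  by_contra hno
  have hp := hc.pos
  have hp0 := ch_c0 hA hc
  have ho := hc.ord 0 1 (lt01 hA)
  have hN := hA.N0
  have h2 := ac_sub H hA (ne01 hA) (y := q) (χ := -f 1) hno (fun h => by
    by_cases h4 : -(f 0 - f 1) = -f 1
    · -- then `-(f 0 - f 1) = -f 1`, so `β 0 1` distinguishes them
      have h5 := congrArg (β 0 1) (neg_injective h4)
      rw [map_sub, hA.be 0 1 0 (ne01 hA), hA.be 0 1 1 (ne01 hA), if_pos rfl, if_neg (ne01 hA),
        if_neg (ne01 hA).symm, if_pos rfl] at h5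
      omega
    · have h3 := hoth _ h h4
      rw [map_neg, map_sub] at h3
      linarith) hq (by
      rw [map_neg, hA.be 0 1 1 (ne01 hA), if_neg (ne01 hA).symm, if_pos rfl]
      omega)
  have e : -f 1 - (f 0 - f 1) = -f 0 := by abel
  rw [e] at h2
  exact wallA_not_f0 hA hc hoth h2

end

/-! ### The wall `f 0 - f 1` -/

section
variable {q : FP 𝒜}

theorem c01 (hA : H989.AC 𝒜 N n f β E F) (hc : N2.Ch2 𝒜 n f c) : 0 < c (f 0 - f 1) := by
  have ho := hc.ord 0 1 (lt01 hA)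
  rw [map_sub]
  linarith

theorem wallB_src (H : Hyp 𝒜) (hA : H989.AC 𝒜 N n f β E F) (hc : N2.Ch2 𝒜 n f c)
    (hq : q.Pi (-(f 0 - f 1))) (hoth : ∀ ψ, q.Pi ψ → ψ ≠ -(f 0 - f 1) → 0 < c ψ) {p : FP 𝒜}
    (hp : Pos c p) : p.Pi (f 0 - f 1) := by
  obtain ⟨p', m, φ, hφ⟩ := exists_curve H q hq
  have hp' := N2.pos_of_one_neg H hφ (c01 hA hc) hoth
  have h1 := hφ.ya'
  rw [neg_neg] at h1
  exact ((same_pi (pos_unique H c hc.ne hp' hp) H).2 _).1 h1

theorem be01 (hA : H989.AC 𝒜 N n f β E F) : β 0 1 (f 0) = N ∧ β 0 1 (f 1) = -N ∧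
    β 0 1 (f (Fin.last n)) = 0 := by
  have h01 := ne01 hA
  refine ⟨?_, ?_, ?_⟩
  · rw [hA.be 0 1 0 h01, if_pos rfl, if_neg h01, sub_zero]
  · rw [hA.be 0 1 1 h01, if_neg h01.symm, if_pos rfl, zero_sub]
  · rw [hA.be 0 1 _ h01, if_neg (ne_L hA).1.symm, if_neg (ne_L hA).2.symm, sub_zero]

/-- Along the curve of the root `f 0 - f 1`. -/
theorem root_line (hA : H989.AC 𝒜 N n f β E F) {μ : Fin r → ℤ} {k : ℤ}
    (hk : Wt 𝒜 (μ + k • (f 0 - f 1))) (hm : ∀ k : ℤ, μ ≠ k • (f 0 - f 1)) :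
    |β 0 1 μ + k * (2 * N)| ≤ N := by
  have h := (hA.root 0 1 (ne01 hA)).bd _ hk
    (fun h => hm (1 - k) (by rw [sub_smul, one_smul]; exact eq_sub_of_add_eq h))
    (fun h => hm (-1 - k) (by rw [sub_smul, neg_smul, one_smul]; exact eq_sub_of_add_eq h))
  rwa [map_add, map_zsmul, (hA.root 0 1 (ne01 hA)).two, smul_eq_mul] at h

theorem not_line (hA : H989.AC 𝒜 N n f β E F) {μ : Fin r → ℤ} (h : ∀ k : ℤ, β 0 1 μ ≠ k * (2 * N))
    (k : ℤ) : μ ≠ k • (f 0 - f 1) := by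
  intro h1
  apply h k
  rw [h1, map_zsmul, (hA.root 0 1 (ne01 hA)).two, smul_eq_mul]

theorem odd_ne {N k : ℤ} (hN : 0 < N) : N ≠ k * (2 * N) ∧ -N ≠ k * (2 * N) := by
  refine ⟨fun h => ?_, fun h => ?_⟩
  · have h2 : (2 * k - 1) * N = 0 := by linear_combination -h
    rcases mul_eq_zero.1 h2 with h3 | h3 <;> omega
  · have h2 : (2 * k + 1) * N = 0 := by linear_combination -h
    rcases mul_eq_zero.1 h2 with h3 | h3 <;> omega

theorem wallB_L (H : Hyp 𝒜) (hA : H989.AC 𝒜 N n f β E F) (hc : N2.Ch2 𝒜 n f c)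
    (hq : q.Pi (-(f 0 - f 1))) (hoth : ∀ ψ, q.Pi ψ → ψ ≠ -(f 0 - f 1) → 0 < c ψ) {p : FP 𝒜}
    (hp : Pos c p) (hl : p.Pi (-f (Fin.last n))) : q.Pi (-f (Fin.last n)) := by
  obtain ⟨p', m, φ, hφ⟩ := exists_curve H q hq
  have hp' := N2.pos_of_one_neg H hφ (c01 hA hc) hoth
  have h1 := ((same_pi (pos_unique H c hc.ne hp' hp) H).2 _).2 hl
  obtain ⟨b0, b1, bL⟩ := be01 hA
  have hN := hA.N0
  have hL := cL hA hc
  have ho := c01 hA hc
  -- `-f L` is no multiple of the root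
  have hm : ∀ k : ℤ, -f (Fin.last n) ≠ k • (f 0 - f 1) := by
    intro k hk
    have h2 := congrArg (β 0 1) hk
    rw [map_neg, bL, map_zsmul, (hA.root 0 1 (ne01 hA)).two, smul_eq_mul, neg_zero] at h2
    have h3 : k = 0 := by
      rcases mul_eq_zero.1 h2.symm with h3 | h3
      · exact h3
      · omega
    rw [h3, zero_smul] at hk
    have h4 := congrArg c hk
    rw [map_neg, map_zero] at h4
    linarith
  obtain ⟨k, hk⟩ := H989.curve_wt H hφ (μ := -f (Fin.last n)) (fun k h => hm (-k) (by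
    rw [h, smul_neg, neg_smul])) h1
  have e : -f (Fin.last n) + (k : ℤ) • -(f 0 - f 1) =
      -f (Fin.last n) + (-(k : ℤ)) • (f 0 - f 1) := by
    rw [smul_neg, neg_smul]
  rw [e] at hk
  have h2 := root_line hA (μ := -f (Fin.last n)) ⟨q, hk⟩ hm
  rw [map_neg, bL, abs_le] at h2
  have h3 : (k : ℤ) = 0 := by
    by_contra h4
    have h5 : (1 : ℤ) ≤ k := by omega
    nlinarith [h2.1]
  rwa [h3, neg_zero, zero_smul, add_zero] at hk

theorem wallB_f1L (H : Hyp 𝒜) (hA : H989.AC 𝒜 N n f β E F) (hc : N2.Ch2 𝒜 n f c)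
    (hq : q.Pi (-(f 0 - f 1))) (hoth : ∀ ψ, q.Pi ψ → ψ ≠ -(f 0 - f 1) → 0 < c ψ) :
    q.Pi (f 1 - f (Fin.last n)) := by
  have hL := cL hA hc
  have hp0 := ch_c0 hA hc
  have hp := hc.pos
  have h2 := ac_ns H hA (ne_L hA).1 (y := q) (χ := -(f 0 - f 1)) (fun h => by
    have h3 := hoth _ h (fun h4 => by
      have h6 := congrArg c (neg_injective h4)
      rw [map_sub, map_sub] at h6
      linarith)
    rw [map_neg, map_sub] at h3
    linarith) hq (by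
      rw [map_neg, map_sub, hA.be 0 _ 0 (ne_L hA).1, hA.be 0 _ 1 (ne_L hA).1,
        if_neg (ne_L hA).1, if_pos rfl, if_neg (ne01 hA).symm, if_neg (ne_L hA).2]
      have := hA.N0
      omega)
  have e : -(f 0 - f 1) + (f 0 - f (Fin.last n)) = f 1 - f (Fin.last n) := by abel
  rwa [e] at h2

theorem wallB_f0L (H : Hyp 𝒜) (hA : H989.AC 𝒜 N n f β E F) (hc : N2.Ch2 𝒜 n f c)
    (hq : q.Pi (-(f 0 - f 1))) (hoth : ∀ ψ, q.Pi ψ → ψ ≠ -(f 0 - f 1) → 0 < c ψ) {p : FP 𝒜}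
    (hp : Pos c p) (hl : p.Pi (-f (Fin.last n))) : q.Pi (f 0 - f (Fin.last n)) := by
  have hL := cL hA hc
  have hp0 := ch_c0 hA hc
  have hp1 := hc.pos
  obtain ⟨b0, b1, bL⟩ := be01 hA
  have hN := hA.N0
  refine pi_L H hA (ne_L hA).1 (fun h => ?_) (fun h => ?_) (wallB_L H hA hc hq hoth hp hl)
  · have h3 := hoth _ h (fun h4 => by
      have h6 := congrArg c (neg_injective h4)
      rw [map_sub, map_sub] at h6
      linarith)
    rw [map_neg, map_sub] at h3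
    linarith
  · have h3 := hoth _ h (fun h4 => by
      have h6 := congrArg c (neg_injective h4)
      rw [map_sub] at h6
      linarith)
    rw [map_neg] at h3
    linarith

/-- The weights `f 0`, `f 1` are exchanged. -/
theorem wallB_f1 (H : Hyp 𝒜) (hA : H989.AC 𝒜 N n f β E F) (hc : N2.Ch2 𝒜 n f c)
    (hq : q.Pi (-(f 0 - f 1))) (hoth : ∀ ψ, q.Pi ψ → ψ ≠ -(f 0 - f 1) → 0 < c ψ) {p : FP 𝒜}
    (hp : Pos c p) : q.Pi (f 1) ↔ p.Pi (f 0) := by
  obtain ⟨p', m, φ, hφ⟩ := exists_curve H q hq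
  have hp' := N2.pos_of_one_neg H hφ (c01 hA hc) hoth
  have hs := (same_pi (pos_unique H c hc.ne hp' hp) H).2
  obtain ⟨b0, b1, bL⟩ := be01 hA
  have hN := hA.N0
  have ho := c01 hA hc
  rw [← hs]
  constructor
  · intro h
    obtain ⟨φ', hφ', -⟩ := H490.exists_rev H hφ
    have hm : ∀ k : ℤ, f 1 ≠ k • (f 0 - f 1) :=
      not_line hA (fun k => by rw [b1]; exact (odd_ne hN).2)
    obtain ⟨k, hk⟩ := H989.curve_wt H hφ' (μ := f 1) (fun k h => hm k (by rwa [neg_neg] at h)) h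
    rw [neg_neg] at hk
    have h2 := root_line hA (μ := f 1) ⟨p', hk⟩ hm
    rw [b1, abs_le] at h2
    have h3 : (k : ℤ) ≤ 1 := by
      by_contra h4
      have h5 : (2 : ℤ) ≤ k := by omega
      nlinarith [h2.2]
    have h4 : (k : ℤ) = 0 ∨ (k : ℤ) = 1 := by omega
    rcases h4 with h4 | h4
    · rw [h4, zero_smul, add_zero] at hk
      exact src_f0 H hA hc hp' hk
    · rw [h4, one_smul, add_sub_cancel] at hk
      exact hk
  · intro h
    have hm : ∀ k : ℤ, f 0 ≠ k • (f 0 - f 1) :=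
      not_line hA (fun k => by rw [b0]; exact (odd_ne hN).1)
    obtain ⟨k, hk⟩ := H989.curve_wt H hφ (μ := f 0) (fun k h => hm (-k) (h.trans (by
      rw [smul_neg, neg_smul]))) h
    have e : f 0 + (k : ℤ) • -(f 0 - f 1) = f 0 + (-(k : ℤ)) • (f 0 - f 1) := by
      rw [smul_neg, neg_smul]
    rw [e] at hk
    have h2 := root_line hA (μ := f 0) ⟨q, hk⟩ hm
    rw [b0, abs_le] at h2
    have h3 : (k : ℤ) ≤ 1 := by
      by_contra h4
      have h5 : (2 : ℤ) ≤ k := by omega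
      nlinarith [h2.1]
    have h4 : (k : ℤ) = 0 ∨ (k : ℤ) = 1 := by omega
    rcases h4 with h4 | h4
    · rw [h4, neg_zero, zero_smul, add_zero] at hk
      have h5 := ac_ns H hA (ne01 hA).symm (y := q) (χ := f 0) (fun h6 => by
        rw [neg_sub] at h6
        exact H170.not_pi_neg H h6 hq) hk (by
          rw [hA.be 1 0 0 (ne01 hA).symm, if_neg (ne01 hA), if_pos rfl]
          omega)
      rwa [add_sub_cancel] at h5
    · rw [h4, neg_smul, one_smul, neg_sub, add_sub_cancel] at hk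
      exact hk

end

end Vale.Agent.P280.H144
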