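import Vale.Agent.P280.H144.TwoX
import Vale.Agent.P280.H144.TwoW
import Vale.Agent.P280.H340.Wall
import Vale.Agent.P280.H399.WallAB
import Vale.Agent.P280.H900.Polar
import Vale.Agent.P280.N.A14

/-! P280, stage 2, leaf (a): the weight `-f L` at the source of the chamber `Ch2`. -/

set_option linter.unusedSectionVars false

open DirectSum Vale.Agent.P280.T Vale.Agent.P280.H127 Vale.Agent.P280.N

namespace Vale.Agent.P280.H144

variable {r : ℕ} {R : Type} [CommRing R] [IsDomain R] [Algebra ℂ R]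
  {𝒜 : ℕ × (Fin r → ℤ) → Submodule ℂ R} [GradedAlgebra 𝒜]
variable {N : ℤ} {n : ℕ} {f : Fin (n + 1) → Fin r → ℤ}
  {β : Fin (n + 1) → Fin (n + 1) → ((Fin r → ℤ) →+ ℤ)} {E F : Fin (n + 1) → Fin (n + 1) → VF R}
  {c : (Fin r → ℤ) →+ ℤ}

/-- A wall point of direction `b`. -/
structure IsW (c : (Fin r → ℤ) →+ ℤ) (b : Fin r → ℤ) (q : FP 𝒜) : Prop where
  pi : q.Pi (-b)
  oth : ∀ ψ, q.Pi ψ → ψ ≠ -b → 0 < c ψ

theorem hk_pow {d : ℤ} {m : Fin r → ℤ} {x : FractionRing R} (hx : HK 𝒜 d m x) (k : ℕ) :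
    HK 𝒜 (k * d) (k • m) (x ^ k) := by
  induction k with
  | zero =>
    rw [pow_zero, zero_smul]
    exact HK.one.cast (by push_cast; ring) rfl
  | succ k ih =>
    rw [pow_succ]
    exact (ih.mul hx).cast (by push_cast; ring) (by rw [add_smul, one_smul])

/-- A function which is regular at the source is regular at all sources. -/
theorem reg_src (H : Hyp 𝒜) (hc : N2.Ch2 𝒜 n f c) {p : FP 𝒜} (hp : Pos c p) {m : Fin r → ℤ}
    {x : FractionRing R} (hx : HK 𝒜 0 m x) (hr : Rg p.q x) (y0 : FP 𝒜) (hy0 : Pos c y0) :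
    Rg y0.q x :=
  A04.same_rg H (pos_unique H c hc.ne hp hy0) hx hr

theorem regV_src (H : Hyp 𝒜) (hc : N2.Ch2 𝒜 n f c) {p : FP 𝒜} (hp : Pos c p) {lam : Fin r → ℤ}
    {v : VF R} (hv : HV 𝒜 lam v) (hr : RgV p.q v) (y0 : FP 𝒜) (hy0 : Pos c y0) : RgV y0.q v :=
  A04.same_rgV H (pos_unique H c hc.ne hp hy0) hv hr

theorem f_ne0 (hA : H989.AC 𝒜 N n f β E F) (hc : N2.Ch2 𝒜 n f c) : f 0 ≠ 0 ∧ f 1 ≠ 0 := by
  refine ⟨fun h => ?_, fun h => ?_⟩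
  · have := ch_c0 hA hc
    rw [h, map_zero] at this
    exact lt_irrefl _ this
  · have := hc.pos
    rw [h, map_zero] at this
    exact lt_irrefl _ this

theorem ab_ne (hA : H989.AC 𝒜 N n f β E F) : f 1 ≠ f 0 - f 1 := by
  intro h
  obtain ⟨b0, b1, -⟩ := be01 hA
  have h1 := congrArg (β 0 1) h
  rw [map_sub, b0, b1] at h1
  have := hA.N0
  omega

/-- A nonzero function of weight `f 1`, regular at the source, has a pole at the wall `f 1`. -/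
theorem not_rg1 (H : Hyp 𝒜) (hA : H989.AC 𝒜 N n f β E F) (hv : N2.NoVec 𝒜 n f)
    (hc : N2.Ch2 𝒜 n f c) {p : FP 𝒜} (hp : Pos c p) {x : FractionRing R} (hx : HK 𝒜 0 (f 1) x)
    (hr : Rg p.q x) (hx0 : x ≠ 0) {q : FP 𝒜} (hq : IsW c (f 1) q) : ¬ Rg q.q x := by
  intro hrq
  obtain ⟨y, b, hb, hcb, hoth, hn, hk⟩ := H399.lowest_fun H c hc.ne (f_ne0 hA hc).2 hx hx0
    (reg_src H hc hp hx hr)
  obtain ⟨d, z, hz⟩ := exists_crd H y hb
  obtain ⟨k, hk⟩ := hk d z hz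
  obtain ⟨l, M, hl, hM, he⟩ := H900.xmon H y hz hx hk hn
  rw [zero_smul, zero_add] at he
  obtain ⟨-, rfl, -⟩ := N2.rel_fun1 H hA hv hc hb hcb hoth hl hM he
  exact hn (A04.same_rg H (H399.uniqA hA hv hc H hq.pi hq.oth hb hoth) hx hrq)

/-- A nonzero function of weight `f 0`, regular at the source, has a pole at a wall. -/
theorem not_rg0 (H : Hyp 𝒜) (hA : H989.AC 𝒜 N n f β E F) (hv : N2.NoVec 𝒜 n f)
    (hc : N2.Ch2 𝒜 n f c) {p : FP 𝒜} (hp : Pos c p) {x : FractionRing R} (hx : HK 𝒜 0 (f 0) x)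
    (hr : Rg p.q x) (hx0 : x ≠ 0) : (∃ q : FP 𝒜, IsW c (f 1) q ∧ ¬ Rg q.q x) ∨
      ∃ q : FP 𝒜, IsW c (f 0 - f 1) q ∧ ¬ Rg q.q x := by
  obtain ⟨y, b, hb, hcb, hoth, hn, hk⟩ := H399.lowest_fun H c hc.ne (f_ne0 hA hc).1 hx hx0
    (reg_src H hc hp hx hr)
  obtain ⟨d, z, hz⟩ := exists_crd H y hb
  obtain ⟨k, hk⟩ := hk d z hz
  obtain ⟨l, M, hl, hM, he⟩ := H900.xmon H y hz hx hk hn
  rw [zero_smul, zero_add] at he
  obtain ⟨-, ⟨rfl, -⟩ | ⟨rfl, -⟩⟩ := N2.rel_fun0 H hA hv hc hb hcb hoth hl hM he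
  · exact Or.inl ⟨y, ⟨hb, hoth⟩, hn⟩
  · exact Or.inr ⟨y, ⟨hb, hoth⟩, hn⟩

/-- A function of weight `f 1` is regular at the wall `f 0 - f 1`. -/
theorem rg1_B (H : Hyp 𝒜) (hA : H989.AC 𝒜 N n f β E F) (hv : N2.NoVec 𝒜 n f)
    (hc : N2.Ch2 𝒜 n f c) {p : FP 𝒜} (hp : Pos c p) {x : FractionRing R} (hx : HK 𝒜 0 (f 1) x)
    (hr : Rg p.q x) {q : FP 𝒜} (hq : IsW c (f 0 - f 1) q) : Rg q.q x := by
  by_contra hn
  obtain ⟨d, z, hz⟩ := exists_crd H q hq.pi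
  obtain ⟨k, hk⟩ := H399.wallB_fun hA hv hc H hq.pi hq.oth hx (reg_src H hc hp hx hr) d z hz
  obtain ⟨l, M, hl, hM, he⟩ := H900.xmon H q hz hx hk hn
  rw [zero_smul, zero_add] at he
  obtain ⟨-, h1, -⟩ := N2.rel_fun1 H hA hv hc hq.pi (c01 hA hc) hq.oth hl hM he
  exact ab_ne hA h1.symm

/-- A field which is regular at the source and at the walls is global. -/
theorem glob_walls (H : Hyp 𝒜) (hA : H989.AC 𝒜 N n f β E F) (hv : N2.NoVec 𝒜 n f)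
    (hc : N2.Ch2 𝒜 n f c) {p : FP 𝒜} (hp : Pos c p) {v : VF R}
    (hvv : HV 𝒜 (-f (Fin.last n)) v) (hr : RgV p.q v)
    (h1 : ∀ q : FP 𝒜, IsW c (f 1) q → RgV q.q v)
    (h2 : ∀ q : FP 𝒜, IsW c (f 0 - f 1) q → RgV q.q v) : Glob v := by
  by_contra hnot
  have hL : -f (Fin.last n) ≠ 0 := by
    rw [Ne, neg_eq_zero]
    intro h
    have := cL hA hc
    rw [h, map_zero] at this
    exact lt_irrefl _ this
  obtain ⟨y, b, hb, hcb, hoth, hn, hk⟩ := H399.lowest_field H c hc.ne hL hvv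
    (regV_src H hc hp hvv hr) hnot
  by_cases hb1 : b = f 1
  · subst hb1
    exact hn (h1 y ⟨hb, hoth⟩)
  by_cases hb2 : b = f 0 - f 1
  · subst hb2
    exact hn (h2 y ⟨hb, hoth⟩)
  obtain ⟨ρ, g0, g1, hρ, -, hg0, -, hk0, -, -, hg1, rfl⟩ :=
    H340.rm_wall H hA hv hc hb hcb hoth hvv hk
  have e1 : g1 = 0 := hg1 fun h => hb1 h.1
  have e0 : Rg y.q g0 := by
    by_contra hn0
    obtain ⟨d, z, hz⟩ := exists_crd H y hb
    obtain ⟨k, hk⟩ := hk0 d z hz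
    obtain ⟨l, M, hl, hM, he⟩ := H900.xmon H y hz hg0 hk hn0
    rw [zero_smul, zero_add] at he
    obtain ⟨-, ⟨h3, -⟩ | ⟨h3, -⟩⟩ := N2.rel_fun0 H hA hv hc hb hcb hoth hl hM he
    · exact hb1 h3
    · exact hb2 h3
  apply hn
  rw [e1, zero_smul, add_zero]
  exact hρ.add (RgV.smul e0 (hA.root 0 _ (ne_L hA).1).globE.rgV)

theorem huniq0 (H : Hyp 𝒜) (hA : H989.AC 𝒜 N n f β E F) (hv : N2.NoVec 𝒜 n f)
    (hc : N2.Ch2 𝒜 n f c) {q : FP 𝒜} {b : Fin r → ℤ} (hb : q.Pi (-b)) (hcb : 0 < c b)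
    (hoth : ∀ ψ, q.Pi ψ → ψ ≠ -b → 0 < c ψ) (l : ℕ) (M : List (Fin r → ℤ)) (hl : 1 ≤ l)
    (hM : ∀ ω ∈ M, q.Pi ω ∧ ω ≠ -b) (he : f 0 = (0 : ℤ) • q.ν + l • b + M.sum) :
    l = 1 ∧ M.length ≤ 1 := by
  rw [zero_smul, zero_add] at he
  obtain ⟨h1, ⟨-, rfl⟩ | ⟨-, rfl⟩⟩ := N2.rel_fun0 H hA hv hc hb hcb hoth hl hM he
  · exact ⟨h1, le_refl _⟩
  · exact ⟨h1, le_refl _⟩

theorem huniq1 (H : Hyp 𝒜) (hA : H989.AC 𝒜 N n f β E F) (hv : N2.NoVec 𝒜 n f)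
    (hc : N2.Ch2 𝒜 n f c) {q : FP 𝒜} {b : Fin r → ℤ} (hb : q.Pi (-b)) (hcb : 0 < c b)
    (hoth : ∀ ψ, q.Pi ψ → ψ ≠ -b → 0 < c ψ) (l : ℕ) (M : List (Fin r → ℤ)) (hl : 1 ≤ l)
    (hM : ∀ ω ∈ M, q.Pi ω ∧ ω ≠ -b) (he : f 1 = (0 : ℤ) • q.ν + l • b + M.sum) :
    l = 1 ∧ M.length ≤ 1 := by
  rw [zero_smul, zero_add] at he
  obtain ⟨h1, -, rfl⟩ := N2.rel_fun1 H hA hv hc hb hcb hoth hl hM he
  exact ⟨h1, Nat.zero_le _⟩

/-- The correction by functions of weight `f 0`. -/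
theorem corr (H : Hyp 𝒜) (hA : H989.AC 𝒜 N n f β E F) (hv : N2.NoVec 𝒜 n f)
    (hc : N2.Ch2 𝒜 n f c) {p : FP 𝒜} (hp : Pos c p) {gA gB : FractionRing R}
    (hgA : HK 𝒜 0 (f 0) gA) (hgB : HK 𝒜 0 (f 0) gB)
    (hkA : ∀ q : FP 𝒜, IsW c (f 1) q → ∀ d z, Crd q (-f 1) d z → ∃ k : ℕ, Rg q.q ((iK z) ^ k * gA))
    (hkB : ∀ q : FP 𝒜, IsW c (f 0 - f 1) q → ∀ d z, Crd q (-(f 0 - f 1)) d z →
      ∃ k : ℕ, Rg q.q ((iK z) ^ k * gB)) :
    ∃ x : FractionRing R, HK 𝒜 0 (f 0) x ∧ Rg p.q x ∧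
      (∀ q : FP 𝒜, IsW c (f 1) q → Rg q.q (gA - x)) ∧
      ∀ q : FP 𝒜, IsW c (f 0 - f 1) q → Rg q.q (gB - x) := by
  have z0 : HK 𝒜 0 (f 0) (0 : FractionRing R) := HK.zero le_rfl
  -- it is enough to know one wall point
  have tA : ∀ {q : FP 𝒜}, IsW c (f 1) q → ∀ {x : FractionRing R}, HK 𝒜 0 (f 0) x → Rg q.q x →
      ∀ q' : FP 𝒜, IsW c (f 1) q' → Rg q'.q x := fun {q} hq {x} hx hr q' hq' =>
    A04.same_rg H (H399.uniqA hA hv hc H hq.pi hq.oth hq'.pi hq'.oth) hx hr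
  have tB : ∀ {q : FP 𝒜}, IsW c (f 0 - f 1) q → ∀ {x : FractionRing R}, HK 𝒜 0 (f 0) x →
      Rg q.q x → ∀ q' : FP 𝒜, IsW c (f 0 - f 1) q' → Rg q'.q x := fun {q} hq {x} hx hr q' hq' =>
    A04.same_rg H (H399.uniqB hA hv hc H hq.pi hq.oth hq'.pi hq'.oth) hx hr
  have pA : ∀ {q : FP 𝒜}, IsW c (f 1) q → ∀ {x x' : FractionRing R}, HK 𝒜 0 (f 0) x →
      HK 𝒜 0 (f 0) x' → (∀ d z, Crd q (-f 1) d z → ∃ k : ℕ, Rg q.q ((iK z) ^ k * x)) →
      Rg p.q x' → ¬ Rg q.q x' → ∃ α : ℂ, Rg q.q (x - α • x') := by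
    intro q hq x x' hx hx' hk hr hn
    obtain ⟨d, z, hz⟩ := exists_crd H q hq.pi
    exact H900.polar_one H q c hq.oth hz hx hx' (hk d z hz)
      (H399.wallA_fun hA hv hc H hq.pi hq.oth hx' (reg_src H hc hp hx' hr) d z hz)
      (fun l M h1 h2 h3 => huniq0 H hA hv hc hq.pi hc.pos hq.oth l M h1 h2 h3) hn
  have pB : ∀ {q : FP 𝒜}, IsW c (f 0 - f 1) q → ∀ {x x' : FractionRing R}, HK 𝒜 0 (f 0) x →
      HK 𝒜 0 (f 0) x' → (∀ d z, Crd q (-(f 0 - f 1)) d z → ∃ k : ℕ, Rg q.q ((iK z) ^ k * x)) →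
      Rg p.q x' → ¬ Rg q.q x' → ∃ α : ℂ, Rg q.q (x - α • x') := by
    intro q hq x x' hx hx' hk hr hn
    obtain ⟨d, z, hz⟩ := exists_crd H q hq.pi
    exact H900.polar_one H q c hq.oth hz hx hx' (hk d z hz)
      (H399.wallB_fun hA hv hc H hq.pi hq.oth hx' (reg_src H hc hp hx' hr) d z hz)
      (fun l M h1 h2 h3 => huniq0 H hA hv hc hq.pi (c01 hA hc) hq.oth l M h1 h2 h3) hn
  by_cases hAe : ∃ q : FP 𝒜, IsW c (f 1) q
  · obtain ⟨qA, hqA⟩ := hAe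
    have hp1 := wallA_src H hc hqA.pi hqA.oth hp
    have hp0 := src_f0 H hA hc hp hp1
    by_cases hBe : ∃ q : FP 𝒜, IsW c (f 0 - f 1) q
    · -- two walls
      obtain ⟨qB, hqB⟩ := hBe
      have hpa := wallB_src H hA hc hqB.pi hqB.oth hp
      obtain ⟨x0, x1, xa, h0, h1, ha, r0, r1, ra, -, hind⟩ := fun_indep H p hp1 hpa
        (by rwa [add_sub_cancel])
      have h0' : HK 𝒜 0 (f 0) x0 := h0.cast rfl (add_sub_cancel _ _)
      have hY : HK 𝒜 0 (f 0) (x1 * xa) := (h1.mul ha).cast (by norm_num) (add_sub_cancel _ _)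
      have rY : Rg p.q (x1 * xa) := r1.mul ra
      obtain ⟨dA, zA, hzA⟩ := exists_crd H qA hqA.pi
      obtain ⟨dB, zB, hzB⟩ := exists_crd H qB hqB.pi
      obtain ⟨a, a', hne, hYB⟩ := H900.polar_sym H qA c hqA.oth hzA h0' hY
        (H399.wallA_fun hA hv hc H hqA.pi hqA.oth h0' (reg_src H hc hp h0' r0) dA zA hzA)
        (H399.wallA_fun hA hv hc H hqA.pi hqA.oth hY (reg_src H hc hp hY rY) dA zA hzA)
        (fun l M h1 h2 h3 => huniq0 H hA hv hc hqA.pi hc.pos hqA.oth l M h1 h2 h3)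
      obtain ⟨e, e', hne', hYA⟩ := H900.polar_sym H qB c hqB.oth hzB h0' hY
        (H399.wallB_fun hA hv hc H hqB.pi hqB.oth h0' (reg_src H hc hp h0' r0) dB zB hzB)
        (H399.wallB_fun hA hv hc H hqB.pi hqB.oth hY (reg_src H hc hp hY rY) dB zB hzB)
        (fun l M h1 h2 h3 => huniq0 H hA hv hc hqB.pi (c01 hA hc) hqB.oth l M h1 h2 h3)
      have hYBk : HK 𝒜 0 (f 0) (a • x0 + a' • (x1 * xa)) := (h0'.smul a).add (hY.smul a')
      have hYAk : HK 𝒜 0 (f 0) (e • x0 + e' • (x1 * xa)) := (h0'.smul e).add (hY.smul e')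
      have hYBr : Rg p.q (a • x0 + a' • (x1 * xa)) := (r0.smul a).add (rY.smul a')
      have hYAr : Rg p.q (e • x0 + e' • (x1 * xa)) := (r0.smul e).add (rY.smul e')
      have nB : ¬ Rg qB.q (a • x0 + a' • (x1 * xa)) := by
        intro h
        rcases not_rg0 H hA hv hc hp hYBk hYBr (fun h0 => by
          obtain ⟨h1, h2⟩ := hind a a' h0
          exact hne.elim (fun h3 => h3 h1) fun h3 => h3 h2) with ⟨q, hq, hn⟩ | ⟨q, hq, hn⟩
        · exact hn (tA hqA hYBk hYB q hq)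
        · exact hn (tB hqB hYBk h q hq)
      have nA : ¬ Rg qA.q (e • x0 + e' • (x1 * xa)) := by
        intro h
        rcases not_rg0 H hA hv hc hp hYAk hYAr (fun h0 => by
          obtain ⟨h1, h2⟩ := hind e e' h0
          exact hne'.elim (fun h3 => h3 h1) fun h3 => h3 h2) with ⟨q, hq, hn⟩ | ⟨q, hq, hn⟩
        · exact hn (tA hqA hYAk h q hq)
        · exact hn (tB hqB hYAk hYA q hq)
      obtain ⟨s, hs⟩ := pA hqA hgA hYAk (hkA qA hqA) hYAr nA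
      obtain ⟨t, ht⟩ := pB hqB hgB hYBk (hkB qB hqB) hYBr nB
      have hxk := (hYAk.smul s).add (hYBk.smul t)
      refine ⟨s • (e • x0 + e' • (x1 * xa)) + t • (a • x0 + a' • (x1 * xa)), hxk,
        (hYAr.smul s).add (hYBr.smul t), fun q hq => ?_, fun q hq => ?_⟩
      · refine tA hqA (hgA.sub hxk) ?_ q hq
        rw [← sub_sub]
        exact hs.sub (hYB.smul t)
      · refine tB hqB (hgB.sub hxk) ?_ q hq
        rw [add_comm, ← sub_sub]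
        exact ht.sub (hYA.smul s)
    · -- only the wall `f 1`
      by_cases hr : Rg qA.q gA
      · refine ⟨0, z0, Rg.zero, fun q hq => ?_, fun q hq => absurd ⟨q, hq⟩ hBe⟩
        rw [sub_zero]
        exact tA hqA hgA hr q hq
      · obtain ⟨x0, h0, r0, hx0⟩ := exists_fun H p hp0
        have n0 : ¬ Rg qA.q x0 := by
          intro h
          rcases not_rg0 H hA hv hc hp h0 r0 hx0 with ⟨q, hq, hn⟩ | ⟨q, hq, hn⟩
          · exact hn (tA hqA h0 h q hq)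
          · exact hBe ⟨q, hq⟩
        obtain ⟨s, hs⟩ := pA hqA hgA h0 (hkA qA hqA) r0 n0
        exact ⟨s • x0, h0.smul s, r0.smul s, fun q hq => tA hqA (hgA.sub (h0.smul s)) hs q hq,
          fun q hq => absurd ⟨q, hq⟩ hBe⟩
  · by_cases hBe : ∃ q : FP 𝒜, IsW c (f 0 - f 1) q
    · obtain ⟨qB, hqB⟩ := hBe
      by_cases hr : Rg qB.q gB
      · refine ⟨0, z0, Rg.zero, fun q hq => absurd ⟨q, hq⟩ hAe, fun q hq => ?_⟩
        rw [sub_zero]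
        exact tB hqB hgB hr q hq
      · have hp0 : p.Pi (f 0) := by
          obtain ⟨d, z, hz⟩ := exists_crd H qB hqB.pi
          obtain ⟨k, hk⟩ := hkB qB hqB d z hz
          obtain ⟨l, M, hl, hM, he⟩ := H900.xmon H qB hz hgB hk hr
          rw [zero_smul, zero_add] at he
          obtain ⟨-, ⟨h3, -⟩ | ⟨-, rfl⟩⟩ :=
            N2.rel_fun0 H hA hv hc hqB.pi (c01 hA hc) hqB.oth hl hM he
          · exact absurd h3.symm (ab_ne hA)
          · exact (wallB_f1 H hA hc hqB.pi hqB.oth hp).1 (hM _ (List.mem_singleton_self _)).1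
        obtain ⟨x0, h0, r0, hx0⟩ := exists_fun H p hp0
        have n0 : ¬ Rg qB.q x0 := by
          intro h
          rcases not_rg0 H hA hv hc hp h0 r0 hx0 with ⟨q, hq, hn⟩ | ⟨q, hq, hn⟩
          · exact hAe ⟨q, hq⟩
          · exact hn (tB hqB h0 h q hq)
        obtain ⟨s, hs⟩ := pB hqB hgB h0 (hkB qB hqB) r0 n0
        exact ⟨s • x0, h0.smul s, r0.smul s, fun q hq => absurd ⟨q, hq⟩ hAe,
          fun q hq => tB hqB (hgB.sub (h0.smul s)) hs q hq⟩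
    · exact ⟨0, z0, Rg.zero, fun q hq => absurd ⟨q, hq⟩ hAe, fun q hq => absurd ⟨q, hq⟩ hBe⟩

/-- The correction by functions of weight `f 1`. -/
theorem corr1 (H : Hyp 𝒜) (hA : H989.AC 𝒜 N n f β E F) (hv : N2.NoVec 𝒜 n f)
    (hc : N2.Ch2 𝒜 n f c) {p : FP 𝒜} (hp : Pos c p) {v : VF R}
    (hvv : HV 𝒜 (-f (Fin.last n)) v) (hr : RgV p.q v) :
    ∃ (x gA : FractionRing R), HK 𝒜 0 (f 1) x ∧ Rg p.q x ∧ HK 𝒜 0 (f 0) gA ∧
      (∀ q : FP 𝒜, IsW c (f 1) q → ∀ d z, Crd q (-f 1) d z → ∃ k : ℕ, Rg q.q ((iK z) ^ k * gA)) ∧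
      ∀ q : FP 𝒜, IsW c (f 1) q →
        RgV q.q (v - x • E 1 (Fin.last n) - gA • E 0 (Fin.last n)) := by
  have hE0 := hA.root 0 _ (ne_L hA).1
  have hE1 := hA.root 1 _ (ne_L hA).2
  have z0 : HK 𝒜 0 (f 0) (0 : FractionRing R) := HK.zero le_rfl
  have z1 : HK 𝒜 0 (f 1) (0 : FractionRing R) := HK.zero le_rfl
  by_cases hAe : ∃ q : FP 𝒜, IsW c (f 1) q
  swap
  · exact ⟨0, 0, z1, Rg.zero, z0, fun q hq => absurd ⟨q, hq⟩ hAe, fun q hq => absurd ⟨q, hq⟩ hAe⟩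
  obtain ⟨qA, hqA⟩ := hAe
  obtain ⟨ρ, g0, g1, hρ, hρv, hg0, hg1, hk0, hk1, -, -, he⟩ :=
    H340.rm_wall H hA hv hc hqA.pi hc.pos hqA.oth hvv
      (H399.wallA_field hA hv hc H hqA.pi hqA.oth hvv (regV_src H hc hp hvv hr))
  have hp1 := wallA_src H hc hqA.pi hqA.oth hp
  obtain ⟨x1, h1, r1, hx1⟩ := exists_fun H p hp1
  have n1 := not_rg1 H hA hv hc hp h1 r1 hx1 hqA
  obtain ⟨dA, zA, hzA⟩ := exists_crd H qA hqA.pi
  obtain ⟨s, hs⟩ := H900.polar_one H qA c hqA.oth hzA hg1 h1 (hk1 dA zA hzA)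
    (H399.wallA_fun hA hv hc H hqA.pi hqA.oth h1 (reg_src H hc hp h1 r1) dA zA hzA)
    (fun l M h1 h2 h3 => huniq1 H hA hv hc hqA.pi hc.pos hqA.oth l M h1 h2 h3) n1
  have hw : HV 𝒜 (-f (Fin.last n)) (v - (s • x1) • E 1 (Fin.last n) - g0 • E 0 (Fin.last n)) := by
    refine (hvv.sub ((hE1.hvE.smul (h1.smul s)).cast (by abel))).sub
      ((hE0.hvE.smul hg0).cast (by abel))
  refine ⟨s • x1, g0, h1.smul s, r1.smul s, hg0, fun q hq d z hz => ?_, fun q hq => ?_⟩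
  · -- transport of `z ^ k g0`
    have hS := H399.uniqA hA hv hc H hqA.pi hqA.oth hq.pi hq.oth
    have hzq : Crd qA (-f 1) d z :=
      H399.same_crd (A04.samePoint_symm hS) hz
    obtain ⟨k, hk⟩ := hk0 d z hzq
    refine ⟨k, A04.same_rg H hS ((hk_pow (HK.ofR hz.1) k).mul hg0) hk⟩
  · have hS := H399.uniqA hA hv hc H hqA.pi hqA.oth hq.pi hq.oth
    refine A04.same_rgV H hS hw ?_
    have e : v - (s • x1) • E 1 (Fin.last n) - g0 • E 0 (Fin.last n) =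
        ρ + (g1 - s • x1) • E 1 (Fin.last n) := by
      rw [he]
      refine Derivation.ext fun h => ?_
      simp only [Derivation.sub_apply, Derivation.add_apply, Derivation.smul_apply, smul_eq_mul]
      ring
    rw [e]
    exact hρ.add (RgV.smul hs hE1.globE.rgV)

/-- (a): at the source of the chamber. -/
theorem two (H : Hyp 𝒜) (hA : H989.AC 𝒜 N n f β E F) (hv : N2.NoVec 𝒜 n f)
    (hc : N2.Ch2 𝒜 n f c) {p : FP 𝒜} (hp : Pos c p) : N2.Real 𝒜 p (-f (Fin.last n)) := by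
  intro t ht htw
  have hE0 := hA.root 0 _ (ne_L hA).1
  have hE1 := hA.root 1 _ (ne_L hA).2
  have z0 : HK 𝒜 0 (f 0) (0 : FractionRing R) := HK.zero le_rfl
  obtain ⟨v, hvv, hvt⟩ := locv H p ht htw
  obtain ⟨x1, gA, h1, r1, hgA, hkA, hA1⟩ := corr1 H hA hv hc hp hvv hvt.rgV
  have hv1 : HV 𝒜 (-f (Fin.last n)) (v - x1 • E 1 (Fin.last n)) :=
    hvv.sub ((hE1.hvE.smul h1).cast (by abel))
  have hr1 : RgV p.q (v - x1 • E 1 (Fin.last n)) :=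
    hvt.rgV.sub (RgV.smul r1 hE1.globE.rgV)
  -- at the wall `f 0 - f 1`
  obtain ⟨gB, hgB, hkB, hB1⟩ : ∃ gB : FractionRing R, HK 𝒜 0 (f 0) gB ∧
      (∀ q : FP 𝒜, IsW c (f 0 - f 1) q → ∀ d z, Crd q (-(f 0 - f 1)) d z →
        ∃ k : ℕ, Rg q.q ((iK z) ^ k * gB)) ∧
      ∀ q : FP 𝒜, IsW c (f 0 - f 1) q →
        RgV q.q (v - x1 • E 1 (Fin.last n) - gB • E 0 (Fin.last n)) := by
    by_cases hBe : ∃ q : FP 𝒜, IsW c (f 0 - f 1) q
    swap
    · exact ⟨0, z0, fun q hq => absurd ⟨q, hq⟩ hBe, fun q hq => absurd ⟨q, hq⟩ hBe⟩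
    obtain ⟨qB, hqB⟩ := hBe
    obtain ⟨ρ, g0, g1, hρ, hρv, hg0, -, hk0, -, -, hg1, he⟩ :=
      H340.rm_wall H hA hv hc hqB.pi (c01 hA hc) hqB.oth hv1
        (H399.wallB_field hA hv hc H hqB.pi hqB.oth hv1 (regV_src H hc hp hv1 hr1))
    have e1 : g1 = 0 := hg1 fun h => ab_ne hA h.1.symm
    have hw : HV 𝒜 (-f (Fin.last n)) (v - x1 • E 1 (Fin.last n) - g0 • E 0 (Fin.last n)) :=
      hv1.sub ((hE0.hvE.smul hg0).cast (by abel))
    refine ⟨g0, hg0, fun q hq d z hz => ?_, fun q hq => ?_⟩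
    · have hS := H399.uniqB hA hv hc H hqB.pi hqB.oth hq.pi hq.oth
      have hzq : Crd qB (-(f 0 - f 1)) d z := H399.same_crd (A04.samePoint_symm hS) hz
      obtain ⟨k, hk⟩ := hk0 d z hzq
      exact ⟨k, A04.same_rg H hS ((hk_pow (HK.ofR hz.1) k).mul hg0) hk⟩
    · have hS := H399.uniqB hA hv hc H hqB.pi hqB.oth hq.pi hq.oth
      refine A04.same_rgV H hS hw ?_
      have e : v - x1 • E 1 (Fin.last n) - g0 • E 0 (Fin.last n) = ρ := by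
        rw [he, e1, zero_smul, add_zero, add_sub_cancel_right]
      rw [e]
      exact hρ
  obtain ⟨x0, h0, r0, hxA, hxB⟩ := corr H hA hv hc hp hgA hgB hkA hkB
  have hD : HV 𝒜 (-f (Fin.last n)) (v - x1 • E 1 (Fin.last n) - x0 • E 0 (Fin.last n)) :=
    hv1.sub ((hE0.hvE.smul h0).cast (by abel))
  have hDr : RgV p.q (v - x1 • E 1 (Fin.last n) - x0 • E 0 (Fin.last n)) :=
    hr1.sub (RgV.smul r0 hE0.globE.rgV)
  refine ⟨v - x1 • E 1 (Fin.last n) - x0 • E 0 (Fin.last n), ?_, hD, ?_⟩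
  · refine glob_walls H hA hv hc hp hD hDr (fun q hq => ?_) (fun q hq => ?_)
    · have e : v - x1 • E 1 (Fin.last n) - x0 • E 0 (Fin.last n) =
          (v - x1 • E 1 (Fin.last n) - gA • E 0 (Fin.last n)) +
            (gA - x0) • E 0 (Fin.last n) := by
        refine Derivation.ext fun h => ?_
        simp only [Derivation.sub_apply, Derivation.add_apply, Derivation.smul_apply, smul_eq_mul]
        ring
      rw [e]
      exact (hA1 q hq).add (RgV.smul (hxA q hq) hE0.globE.rgV)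
    · have e : v - x1 • E 1 (Fin.last n) - x0 • E 0 (Fin.last n) =
          (v - x1 • E 1 (Fin.last n) - gB • E 0 (Fin.last n)) +
            (gB - x0) • E 0 (Fin.last n) := by
        refine Derivation.ext fun h => ?_
        simp only [Derivation.sub_apply, Derivation.add_apply, Derivation.smul_apply, smul_eq_mul]
        ring
      rw [e]
      exact (hB1 q hq).add (RgV.smul (hxB q hq) hE0.globE.rgV)
  · -- the value at the source
    have hz : ∀ {μ : Fin r → ℤ} {x : FractionRing R} {D : VF R}, μ ≠ 0 → HK 𝒜 0 μ x →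
        Rg p.q x → Glob D → ValV p.q (x • D) 0 := by
      intro μ x D hμ hx hr hD h
      have h1 : Val p.q x 0 := val_zero p hx hr (by rwa [zero_smul])
      obtain ⟨a, ha⟩ := (hD.rgV h : Rg p.q (D (iK h))).val
      have h2 := h1.mul ha
      rw [zero_mul] at h2
      rw [Derivation.smul_apply, smul_eq_mul, LinearMap.zero_apply]
      exact h2
    have h2 := (hvt.sub (hz (f_ne0 hA hc).2 h1 r1 hE1.globE)).sub
      (hz (f_ne0 hA hc).1 h0 r0 hE0.globE)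
    rwa [sub_zero, sub_zero] at h2

end Vale.Agent.P280.H144
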