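import Vale.Agent.P280.N2.Defs
import Vale.Agent.P280.N.A05
import Vale.Agent.P280.N.A06

/-! P280, stage 2: local functions of a given weight at a fixed point. -/

set_option linter.unusedSectionVars false

open DirectSum Vale.Agent.P280.T Vale.Agent.P280.H127 Vale.Agent.P280.N

namespace Vale.Agent.P280.H144

variable {r : ℕ} {R : Type} [CommRing R] [IsDomain R] [Algebra ℂ R]
  {𝒜 : ℕ × (Fin r → ℤ) → Submodule ℂ R} [GradedAlgebra 𝒜]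

/-- Coordinates exist. -/
theorem exists_crd (H : Hyp 𝒜) (y : FP 𝒜) {χ : Fin r → ℤ} (hχ : y.Pi χ) :
    ∃ d u, Crd y χ d u := by
  obtain ⟨n, w, -, hpi, hex, -⟩ := coords H y
  obtain ⟨i, rfl⟩ := (hpi χ).1 hχ
  exact hex i

/-- A section of degree one with value one. -/
theorem exists_sec (H : Hyp 𝒜) (y : FP 𝒜) : ∃ s ∈ 𝒜 (1, y.ν), y.q s = 1 := by
  obtain ⟨f, hf, hfy⟩ := exists_deg_one_ne H.hX.gen y.nv y.fix
  refine ⟨(y.q f)⁻¹ • f, Submodule.smul_mem _ _ hf, ?_⟩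
  rw [map_smul, smul_eq_mul, inv_mul_cancel₀ hfy]

theorem sec_pow {y : FP 𝒜} {s : R} (hs : s ∈ 𝒜 (1, y.ν)) (d : ℕ) : s ^ d ∈ 𝒜 (d, d • y.ν) := by
  have h1 := SetLike.pow_mem_graded d hs
  have e : d • ((1, y.ν) : ℕ × (Fin r → ℤ)) = (d, d • y.ν) := by
    ext <;> simp
  rwa [e] at h1

theorem sec_ne {y : FP 𝒜} {s : R} (hs1 : y.q s = 1) (d : ℕ) : iK (s ^ d) ≠ 0 := by
  have h1 : s ^ d ≠ 0 := by
    intro h0
    have h2 : y.q (s ^ d) = 1 := by rw [map_pow, hs1, one_pow]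
    rw [h0, map_zero] at h2
    exact zero_ne_one h2
  intro h
  exact h1 (iK_inj (by rw [h, iK_zero]))

/-- The function of a coordinate. -/
theorem crd_fun {y : FP 𝒜} {s : R} (hs : s ∈ 𝒜 (1, y.ν)) (hs1 : y.q s = 1) {χ : Fin r → ℤ}
    {d : ℕ} {u : R} (hu : Crd y χ d u) :
    HK 𝒜 0 χ (iK u / iK (s ^ d)) ∧ Rg y.q (iK u / iK (s ^ d)) ∧ iK u / iK (s ^ d) ≠ 0 := by
  have h0 := sec_ne (y := y) hs1 d
  have e : iK (s ^ d) * (iK u / iK (s ^ d)) = iK u := by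
    rw [mul_comm, div_mul_cancel₀ _ h0]
  refine ⟨⟨d, d, d • y.ν + χ, d • y.ν, u, hu.1, s ^ d, sec_pow hs d, ?_, e, ?_, ?_⟩,
    ⟨u, s ^ d, ?_, e⟩, ?_⟩
  · intro h
    exact h0 (by rw [h, iK_zero])
  · simp
  · abel
  · rw [map_pow, hs1, one_pow]
    exact one_ne_zero
  · intro h
    rw [h, mul_zero] at e
    obtain ⟨-, -, t, -, -, ht⟩ := hu
    apply ht
    have h2 : u = 0 := iK_inj (by rw [← e, iK_zero])
    rw [h2, map_zero]

theorem exists_fun (H : Hyp 𝒜) (p : FP 𝒜) {χ : Fin r → ℤ} (hχ : p.Pi χ) :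
    ∃ x : FractionRing R, HK 𝒜 0 χ x ∧ Rg p.q x ∧ x ≠ 0 := by
  obtain ⟨d, u, hu⟩ := exists_crd H p hχ
  obtain ⟨s, hs, hs1⟩ := exists_sec H p
  exact ⟨_, crd_fun hs hs1 hu⟩

/-- A linear term is not a product. -/
theorem fun_indep (H : Hyp 𝒜) (p : FP 𝒜) {χ ψ : Fin r → ℤ} (h1 : p.Pi χ) (h2 : p.Pi ψ)
    (h3 : p.Pi (χ + ψ)) : ∃ x0 x1 xa : FractionRing R, HK 𝒜 0 (χ + ψ) x0 ∧ HK 𝒜 0 χ x1 ∧
      HK 𝒜 0 ψ xa ∧ Rg p.q x0 ∧ Rg p.q x1 ∧ Rg p.q xa ∧ x1 ≠ 0 ∧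
      ∀ α γ : ℂ, α • x0 + γ • (x1 * xa) = 0 → α = 0 ∧ γ = 0 := by
  obtain ⟨d1, u1, hu1⟩ := exists_crd H p h1
  obtain ⟨da, ua, hua⟩ := exists_crd H p h2
  obtain ⟨d0, u0, hu0⟩ := exists_crd H p h3
  obtain ⟨s, hs, hs1⟩ := exists_sec H p
  have g1 := crd_fun hs hs1 hu1
  have ga := crd_fun hs hs1 hua
  have g0 := crd_fun hs hs1 hu0
  refine ⟨_, _, _, g0.1, g1.1, ga.1, g0.2.1, g1.2.1, ga.2.1, g1.2.2, fun α γ h => ?_⟩
  have e0 := sec_ne (y := p) hs1 d0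
  have e1 := sec_ne (y := p) hs1 d1
  have ea := sec_ne (y := p) hs1 da
  have key : α • (u0 * s ^ (d1 + da)) + γ • (u1 * ua * s ^ d0) = 0 := by
    apply iK_inj
    rw [iK_zero, iK_add, iK_smul, iK_smul, iK_mul, iK_mul, iK_mul, pow_add, iK_mul]
    have h4 : (iK (s ^ d0) * (iK (s ^ d1) * iK (s ^ da))) *
        (α • (iK u0 / iK (s ^ d0)) + γ • (iK u1 / iK (s ^ d1) * (iK ua / iK (s ^ da)))) = 0 := by
      rw [h, mul_zero]
    rw [← h4, mul_add, Algebra.smul_def, Algebra.smul_def, Algebra.smul_def, Algebra.smul_def]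
    field_simp
  have hα : α = 0 := by
    obtain ⟨-, hz0, t, ht, -, ht0⟩ := hu0
    have h5 := congrArg t key
    rw [map_zero, map_add, map_smul, map_smul, ht (u0) (s ^ (d1 + da)), ht (u1 * ua) (s ^ d0),
      ht u1 ua, map_mul, hz0, hu1.2.1, hua.2.1] at h5
    simp only [smul_eq_mul, zero_mul, mul_zero, add_zero, zero_add] at h5
    rw [map_pow, hs1, one_pow] at h5
    simpa [ht0] using h5
  refine ⟨hα, ?_⟩
  rw [hα, zero_smul, zero_add] at h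
  by_contra hγ
  rcases smul_eq_zero.1 h with h4 | h4
  · exact hγ h4
  · rcases mul_eq_zero.1 h4 with h5 | h5
    · exact g1.2.2 h5
    · exact ga.2.2 h5

end Vale.Agent.P280.H144
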